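import Crest.Agent.R73.Level

/-!
Row 73: matrices of a fixed size do not see the representations of high level.
-/

set_option autoImplicit false
set_option linter.unusedVariables false
set_option linter.unusedSectionVars false

open Matrix Crest.Agent.R137 Finset
open scoped Kronecker InnerProductSpace ComplexOrder MatrixOrder

namespace Crest.Agent.R73

section HS
variable {l m n p : Type} [Fintype l] [Fintype m] [Fintype n] [Fintype p] [DecidableEq l]
  [DecidableEq m] [DecidableEq n] [DecidableEq p]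

/-- A matrix as a vector. -/
def V (A : Matrix m n ℂ) : EuclideanSpace ℂ (n × m) := WithLp.toLp 2 (vec A)

lemma inner_V (A B : Matrix m n ℂ) : ⟪V A, V B⟫_ℂ = (Aᴴ * B).trace := by
  rw [← star_vec_dotProduct_vec, dotProduct_comm]
  rfl

lemma V_surj (v : EuclideanSpace ℂ (n × m)) : ∃ A : Matrix m n ℂ, V A = v :=
  ⟨of fun i j => v (j, i), rfl⟩

lemma norm_V_eq {A : Matrix m n ℂ} {B : Matrix l p ℂ} (h : (Aᴴ * A).trace = (Bᴴ * B).trace) :
    ‖V A‖ = ‖V B‖ := by
  rw [@norm_eq_sqrt_re_inner ℂ, @norm_eq_sqrt_re_inner ℂ, inner_V, inner_V, h]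

lemma kron_V (A : Matrix m m ℂ) (B : Matrix n n ℂ) (X : Matrix m n ℂ) :
    toEuclideanCLM (n := n × m) (𝕜 := ℂ) (B ⊗ₖ A) (V X) = V (A * X * Bᵀ) :=
  congrArg (WithLp.toLp 2) (kronecker_mulVec_vec A X B)

lemma norm_V_mul (B : Matrix m m ℂ) (A : Matrix m n ℂ) : ‖V (B * A)‖ ≤ opn B * ‖V A‖ := by
  refine (pow_le_pow_iff_left₀ (norm_nonneg _) (mul_nonneg (norm_nonneg _) (norm_nonneg _))
    two_ne_zero).mp ?_
  rw [mul_pow, EuclideanSpace.norm_sq_eq, EuclideanSpace.norm_sq_eq, Fintype.sum_prod_type,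
    Fintype.sum_prod_type, mul_sum]
  refine sum_le_sum fun j _ => ?_
  have h := pow_le_pow_left₀ (norm_nonneg _) ((toEuclideanCLM (n := m) (𝕜 := ℂ) B).le_opNorm
    (WithLp.toLp 2 fun i => A i j)) 2
  rwa [mul_pow, EuclideanSpace.norm_sq_eq, EuclideanSpace.norm_sq_eq] at h

lemma opn_star_mul (A B : Matrix m m ℂ) : opn (Aᴴ * B) ≤ opn A * opn B := by
  rw [opn, ← star_eq_conjTranspose, map_mul, map_star]
  exact (norm_mul_le _ _).trans (by rw [norm_star]; rfl)

lemma exists_polar (T : Matrix m n ℂ) :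
    ∃ (D : Matrix m m ℂ) (G : Matrix m n ℂ), Dᴴ = D ∧ T = D * G ∧ G * Gᴴ = D * D := by
  have hA : 0 ≤ T * Tᴴ := (posSemidef_self_mul_conjTranspose T).nonneg
  have hc : ∀ f : ℝ → ℝ, ContinuousOn f (spectrum ℝ (T * Tᴴ)) := fun f =>
    (finite_real_spectrum (A := T * Tᴴ)).continuousOn f
  have hm : ∀ f g : ℝ → ℝ, cfc f (T * Tᴴ) * cfc g (T * Tᴴ) = cfc (fun t => f t * g t) (T * Tᴴ) :=
    fun f g => (cfc_mul f g _ (hc f) (hc g)).symm
  have hs : ∀ f : ℝ → ℝ, (cfc f (T * Tᴴ))ᴴ = cfc f (T * Tᴴ) := fun f =>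
    (cfc_predicate f (T * Tᴴ) : IsSelfAdjoint _)
  have h1 : ∀ f : ℝ → ℝ, cfc f (T * Tᴴ) * T * (cfc f (T * Tᴴ) * T)ᴴ =
      cfc (fun t => f t * t * f t) (T * Tᴴ) := fun f => by
    rw [← hm, ← hm, cfc_id' ℝ (T * Tᴴ) (.of_nonneg hA), conjTranspose_mul, hs]
    simp only [Matrix.mul_assoc]
  refine ⟨cfc (fun t => √√t) (T * Tᴴ), cfc (fun t => (√√t)⁻¹) (T * Tᴴ) * T, hs _, ?_, ?_⟩
  · have h2 := h1 fun t => 1 - √√t * (√√t)⁻¹
    rw [cfc_congr (g := 0) (f := fun t => _ * t * _), cfc_zero, self_mul_conjTranspose_eq_zero,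
      cfc_sub _ _ _ (hc _) (hc _), cfc_const_one ℝ (T * Tᴴ) (.of_nonneg hA), Matrix.sub_mul,
      Matrix.one_mul, sub_eq_zero, ← hm, Matrix.mul_assoc] at h2
    · exact h2
    · intro t ht
      rcases (spectrum_nonneg_of_nonneg hA ht).eq_or_lt with h | h
      · simp [← h]
      · simp [mul_inv_cancel₀ (by positivity : √√t ≠ 0)]
  · rw [h1, hm]
    refine cfc_congr fun t ht => ?_
    rcases (spectrum_nonneg_of_nonneg hA ht).eq_or_lt with h | h
    · simp [← h]
    · have h3 : √√t * √√t = √t := Real.mul_self_sqrt (by positivity)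
      have h4 : √t * √t = t := Real.mul_self_sqrt h.le
      have h5 : √√t ≠ 0 := by positivity
      field_simp
      nlinarith

lemma core {D c c' : Matrix m m ℂ} {G : Matrix m n ℂ} (hD : Dᴴ = D) {C : ℝ} (hc : opn c ≤ C)
    (hc' : opn c' ≤ C) (ρ ρ' : Matrix n n ℂ) :
    ∃ x : ℝ, ‖⟪V (c * (D * G) * ρ), V (c' * (D * G) * ρ')⟫_ℂ‖ ≤ C ^ 2 * ‖V (D * D)‖ * x ∧
      x ^ 2 = (⟪V (ρᴴ * (Gᴴ * G) * ρ), V (ρ'ᴴ * (Gᴴ * G) * ρ')⟫_ℂ).re := by
  have hC : 0 ≤ C := (norm_nonneg _).trans hc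
  set B := cᴴ * c'
  have hB : opn B ≤ C ^ 2 :=
    (opn_star_mul c c').trans (sq C ▸ mul_le_mul hc hc' (norm_nonneg _) hC)
  have hB' : opn Bᴴ ≤ C ^ 2 := by
    rw [conjTranspose_mul, conjTranspose_conjTranspose]
    exact (opn_star_mul c' c).trans (sq C ▸ mul_le_mul hc' hc (norm_nonneg _) hC)
  refine ⟨‖V (G * ρ * ρ'ᴴ * Gᴴ)‖, ?_, ?_⟩
  · have h1 : ⟪V (c * (D * G) * ρ), V (c' * (D * G) * ρ')⟫_ℂ =
        ⟪V (G * ρ * ρ'ᴴ * Gᴴ), V (D * B * D)⟫_ℂ := by
      simp only [inner_V, B, conjTranspose_mul, conjTranspose_conjTranspose, hD, Matrix.mul_assoc]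
      rw [trace_mul_comm G]
      simp only [Matrix.mul_assoc]
      rw [trace_mul_comm ρ']
      simp only [Matrix.mul_assoc]
    have h2 : ‖V (D * B * D)‖ ^ 2 ≤ (C ^ 2 * ‖V (D * D)‖) ^ 2 := by
      have h3 : ⟪V (D * B * D), V (D * B * D)⟫_ℂ = ⟪V (B * (D * D)), V (Bᴴ * (D * D))ᴴ⟫_ℂ := by
        simp only [inner_V, conjTranspose_mul, conjTranspose_conjTranspose, hD, Matrix.mul_assoc]
        conv_rhs => rw [trace_mul_comm D]
        simp only [Matrix.mul_assoc]
      rw [@norm_sq_eq_re_inner ℂ, h3, sq]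
      refine (RCLike.re_le_norm _).trans ((norm_inner_le_norm _ _).trans (mul_le_mul
        ((norm_V_mul _ _).trans (by gcongr)) ?_ (norm_nonneg _) (by positivity)))
      rw [norm_V_eq (B := Bᴴ * (D * D)) (by rw [conjTranspose_conjTranspose, trace_mul_comm])]
      exact (norm_V_mul _ _).trans (by gcongr)
    rw [h1, mul_comm]
    exact (norm_inner_le_norm _ _).trans (mul_le_mul_of_nonneg_left
      ((pow_le_pow_iff_left₀ (norm_nonneg _) (by positivity) two_ne_zero).mp h2) (norm_nonneg _))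
  · rw [@norm_sq_eq_re_inner ℂ]
    simp only [inner_V, conjTranspose_mul, conjTranspose_conjTranspose, Matrix.mul_assoc]
    rw [trace_mul_comm G]
    simp only [Matrix.mul_assoc]
    rw [trace_mul_comm ρ']
    simp only [Matrix.mul_assoc]
    rfl

lemma sum_bound {ι : Type} [Fintype ι] {D : Matrix m m ℂ} {G : Matrix m n ℂ} (hD : Dᴴ = D)
    {c : ι → Matrix m m ℂ} {C : ℝ} (hC : 0 ≤ C) (hc : ∀ i, opn (c i) ≤ C)
    (ρ : ι → Matrix n n ℂ) :
    ‖∑ i, V (c i * (D * G) * ρ i)‖ ^ 2 ≤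
      C ^ 2 * ‖V (D * D)‖ * (Fintype.card ι * ‖∑ i, V ((ρ i)ᴴ * (Gᴴ * G) * ρ i)‖) := by
  choose x hx hx' using fun p : ι × ι => core (G := G) hD (hc p.1) (hc p.2) (ρ p.1) (ρ p.2)
  have h0 : ∀ f : ι → EuclideanSpace ℂ (n × m),
      ‖∑ i, f i‖ ^ 2 ≤ ∑ p : ι × ι, ‖⟪f p.1, f p.2⟫_ℂ‖ := fun f => by
    rw [@norm_sq_eq_re_inner ℂ, sum_inner, Fintype.sum_prod_type]
    simp only [inner_sum]
    exact (RCLike.re_le_norm _).trans
      ((norm_sum_le _ _).trans (sum_le_sum fun i _ => norm_sum_le _ _))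
  refine (h0 _).trans ((sum_le_sum fun p _ => hx p).trans ?_)
  rw [← mul_sum]
  refine mul_le_mul_of_nonneg_left (abs_le_of_sq_le_sq' ?_ (by positivity)).2 (by positivity)
  refine sq_sum_le_card_mul_sum_sq.trans (le_of_eq ?_)
  rw [mul_pow, @norm_sq_eq_re_inner ℂ, sum_inner]
  simp only [hx', inner_sum, Fintype.sum_prod_type, map_sum, card_univ, Fintype.card_prod]
  simp [sq]

end HS

variable {k : ℕ}

/-- The adjoint representation. -/
noncomputable def adj (k : ℕ) : HL k →* unitary (EuclideanSpace ℂ (XX k × XX k) →L[ℂ]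
    EuclideanSpace ℂ (XX k × XX k)) where
  toFun g := ⟨toEuclideanCLM (𝕜 := ℂ) (mat g ⊗ₖ (mat g)ᵀᴴ), by
    have h : star (mat g ⊗ₖ (mat g)ᵀᴴ) * (mat g ⊗ₖ (mat g)ᵀᴴ) = 1 := by
      rw [star_eq_conjTranspose, conjTranspose_kronecker, ← mul_kronecker_mul,
        ← conjTranspose_mul, show (mat g)ᵀᴴ = (mat g)ᴴᵀ from rfl, ← transpose_mul,
        ← star_eq_conjTranspose (mat g), mat_unit]
      simp
    constructor
    · rw [← map_star, ← map_mul, h, map_one]
    · rw [← map_star, ← map_mul, mul_eq_one_comm.mp h, map_one]⟩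
  map_one' := Subtype.ext (by simp [mat_one])
  map_mul' g h := Subtype.ext (by simp [mat_mul, mul_kronecker_mul])

lemma adj_V (g : HL k) (h : Matrix (XX k) (XX k) ℂ) :
    (adj k g).1 (V h) = V ((mat g)ᵀᴴ * h * (mat g)ᵀ) := kron_V _ _ _

lemma inv_entry {g : HL k} {h : Matrix (XX k) (XX k) ℂ} (hh : (adj k g).1 (V h) = V h)
    (χ χ' : XX k) : h (act g χ) (act g χ') = star (ee (ph g χ)) * h χ χ' * ee (ph g χ') := by
  rw [adj_V] at hh
  conv_lhs => rw [← vec_inj.mp (WithLp.toLp_injective 2 hh)]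
  simp [mul_apply, mat, (act_inj g).eq_iff, apply_ite star]

lemma diag {h : Matrix (XX k) (XX k) ℂ} (hh : ∀ i, (adj k (eta k i)).1 (V h) = V h)
    (χ χ' : XX k) (h0 : h χ χ' ≠ 0) : χ = χ' := by
  refine Subtype.ext (funext fun n => ?_)
  induction n generalizing χ χ' with
  | zero =>
    have h1 : ∀ χ : XX k, act (eta _ none) χ = χ := fun χ =>
      Subtype.ext (by simp [act, eta, un, Ed_none])
    have h2 : ∀ χ : XX k, ph (eta _ none) χ = χ.1 0 := fun χ => by simp [ph, eta, un, Ed_none]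
    have h3 := inv_entry (hh none) χ χ'
    rw [h1, h1, h2, h2] at h3
    refine ZMod.injective_stdAddChar (mul_left_cancel₀ h0 ?_)
    conv_lhs => rw [h3]
    linear_combination h χ χ' * ee (χ'.1 0) * conj_ee (χ.1 0)
  | succ n ih =>
    have h1 := ih (act (eta k (some n)) χ) (act (eta k (some n)) χ') (by
      rw [inv_entry (hh _)]
      simp [ph, eta, un, Ed_some, h0])
    simpa [act, eta, un, Ed_some, ih χ χ' h0] using h1

lemma poly_ne {N : Module.End F MM}
    (h1 : ∀ r (v : MM), (∀ i, r < i → v.1 i = 0) → ∀ i, r ≤ i → (N v).1 i = 0)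
    (h2 : ∀ r (v : MM), (∀ i, r + 1 < i → v.1 i = 0) → (N v).1 r = -v.1 (r + 1))
    (r : ℕ) (f : Polynomial F) (hf : f ≠ 0) (hr : f.natDegree ≤ r) (v : MM)
    (hv : ∀ i, r < i → v.1 i = 0) (hv' : v.1 r ≠ 0) : (Polynomial.aeval N f v).1 ≠ 0 := by
  have : Fact (Nat.Prime 17) := ⟨by norm_num⟩
  induction r generalizing f v with
  | zero =>
    rw [Polynomial.eq_C_of_natDegree_le_zero hr] at hf ⊢
    intro h
    simpa [hv', Polynomial.C_ne_zero.mp hf] using congrFun h 0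
  | succ r ih =>
    by_cases hc : f.coeff 0 = 0
    · have h3 := f.divX_mul_X_add
      rw [hc, map_zero, add_zero] at h3
      rw [← h3, map_mul, Polynomial.aeval_X, Module.End.mul_apply]
      refine ih _ (fun h => hf (by rw [← h3, h, zero_mul])) ?_ _ (fun i hi => h1 _ v hv i hi) ?_
      · rw [Polynomial.natDegree_divX_eq_natDegree_tsub_one]
        omega
      · rw [h2 r v hv]
        exact neg_ne_zero.mpr hv'
    · have h3 : ∀ g : Polynomial F, ∀ i, r + 1 < i → (Polynomial.aeval N g v).1 i = 0 := by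
        intro g
        induction g using Polynomial.induction_on with
        | C a => simp +contextual [hv]
        | add p q hp hq => simp +contextual [hp, hq]
        | monomial n a h =>
          rw [pow_succ', mul_left_comm, map_mul, Polynomial.aeval_X, Module.End.mul_apply]
          exact fun i hi => h1 _ _ h i hi.le
      intro h
      have h4 := congrFun h (r + 1)
      rw [← f.X_mul_divX_add, map_add, map_mul, Polynomial.aeval_X] at h4
      simp [h1 _ _ (h3 _), hc, hv'] at h4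

lemma orbit (χ : XX k) : Set.InjOn (fun m : ℕ => act ((eta k (some 0) * eta k (some 1) *
    eta k (some 2)) ^ m) χ) (range (k + 1)) := by
  have : Fact (Nat.Prime 17) := ⟨by norm_num⟩
  set g := eta k (some 0) * eta k (some 1) * eta k (some 2)
  have h0 : ∀ j (v : MM) i, ((eta k (some j)).1.1 v).1 i =
      v.1 i - if (i : ZMod 3) = j then v.1 (i + 1) else 0 := fun j v i => by
    simp only [eta, un, Ed_some, LinearMap.add_apply, Prod.fst_add, Pi.add_apply,
      Module.End.one_apply]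
    split_ifs <;> ring
  have hg : ∀ v : MM, g.1.1 v = (eta k (some 0)).1.1 ((eta k (some 1)).1.1
    ((eta k (some 2)).1.1 v)) := fun v => rfl
  have h1 : ∀ m (ψ : XX k), 0 < m → m ≤ k → act (g ^ m) ψ ≠ ψ := fun m ψ hm hm' h => by
    have h2 : ((1 + Polynomial.X) ^ m : Polynomial F).natDegree = m := by
      rw [Polynomial.natDegree_pow, add_comm, ← Polynomial.C_1, Polynomial.natDegree_X_add_C,
        mul_one]
    have h3 : ((1 + Polynomial.X) ^ m - 1 : Polynomial F).natDegree = m := by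
      rw [← Polynomial.C_1, Polynomial.natDegree_sub_C, Polynomial.C_1, h2]
    refine poly_ne (N := g.1.1 - 1) (fun r v hv i hi => ?_) (fun r v hv => ?_) k
      ((1 + Polynomial.X) ^ m - 1) (fun h => by rw [h] at h3; simp at h3; omega) (by omega)
      (ψ.1, 0) ψ.2.2 (by simp [ψ.2.1]) ?_
    · simp [hg, h0, hv (i + 1) (by omega), hv (i + 1 + 1) (by omega),
        hv (i + 1 + 1 + 1) (by omega)]
    · have : ∀ a : ZMod 3, a = 0 ∨ a = 1 ∨ a = 2 := by decide
      have e1 : (0 : ZMod 3) ≠ 2 := by decide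
      have e2 : (1 : ZMod 3) ≠ 2 := by decide
      rcases this r with h | h | h <;>
      simp [hg, h0, hv (r + 1 + 1) (by omega), hv (r + 1 + 1 + 1) (by omega), h, e1, e2, e1.symm,
        e2.symm]
    · simpa [act, sub_eq_zero] using congrArg Subtype.val h
  have h4 : ∀ a b, a < b → b ≤ k → act (g ^ a) χ ≠ act (g ^ b) χ := fun a b hab hb h => by
    refine h1 (b - a) (act (g ^ a) χ) (by omega) (by omega) ?_
    rw [← (act_mul ..).1, ← pow_add, Nat.sub_add_cancel hab.le, h]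
  intro a ha b hb h
  rcases lt_trichotomy a b with hab | hab | hab
  · exact (h4 a b hab (by simpa [Nat.lt_succ_iff] using hb) h).elim
  · exact hab
  · exact (h4 b a hab (by simpa [Nat.lt_succ_iff] using ha) h.symm).elim

lemma diag_le {h : Matrix (XX k) (XX k) ℂ} (hh : ∀ i, (adj k (eta k i)).1 (V h) = V h)
    (χ : XX k) : (k + 1) * ‖h χ χ‖ ^ 2 ≤ ‖V h‖ ^ 2 := by
  set g := eta k (some 0) * eta k (some 1) * eta k (some 2) with hg
  have h1 : ∀ m : ℕ, (adj k (g ^ m)).1 (V h) = V h := fun m => by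
    induction m with
    | zero => simp
    | succ m ih =>
      have : (adj k g).1 (V h) = V h := by simp [hg, hh]
      rw [pow_succ, map_mul, Submonoid.coe_mul, mul_apply_eq_comp, this, ih]
  have h2 : ∀ m : ℕ, ‖h (act (g ^ m) χ) (act (g ^ m) χ)‖ = ‖h χ χ‖ := fun m => by
    rw [inv_entry (h1 m), mul_right_comm, conj_ee, one_mul]
  calc (k + 1) * ‖h χ χ‖ ^ 2
      = ∑ ψ ∈ (range (k + 1)).image fun m => act (g ^ m) χ, ‖h ψ ψ‖ ^ 2 := by
        rw [sum_image (orbit χ), sum_congr rfl fun m _ => congrArg (· ^ 2) (h2 m)]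
        simp
    _ ≤ ∑ ψ, ‖h ψ ψ‖ ^ 2 := sum_le_univ_sum_of_nonneg fun _ => by positivity
    _ ≤ _ := by
        rw [EuclideanSpace.norm_sq_eq, Fintype.sum_prod_type]
        exact sum_le_sum fun ψ _ => single_le_sum (f := fun φ => ‖h φ ψ‖ ^ 2)
          (fun _ _ => by positivity) (mem_univ ψ)

lemma norm_av_le {m : Type} [Fintype m] [DecidableEq m] {D : Matrix m m ℂ}
    {G : Matrix m (XX k) ℂ} (hD : Dᴴ = D) (hG : G * Gᴴ = D * D)
    (hk : 68 ^ 2 * Fintype.card m ≤ k + 1) :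
    ‖av (fun i => adj k (eta k i)) (V (Gᴴ * G))‖ ≤ 65 * ‖V (D * D)‖ := by
  obtain ⟨q, hq1, hq2, hq3, hq4⟩ := gap ((rel_eta k).map (adj k))
  have hn : ‖V (Gᴴ * G)‖ = ‖V (D * D)‖ := norm_V_eq (by
    rw [← hG]
    simp only [conjTranspose_mul, conjTranspose_conjTranspose, Matrix.mul_assoc]
    rw [trace_mul_comm]
    simp only [Matrix.mul_assoc])
  obtain ⟨h, hh⟩ := V_surj (q (V (Gᴴ * G)))
  have h1 : ∀ i, (adj k (eta k i)).1 (V h) = V h := fun i => by
    rw [hh, ← mul_apply_eq_comp, hq3]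
  have h2 : ‖V h‖ ^ 2 = (⟪V h, V (Gᴴ * G)⟫_ℂ).re := by
    rw [@norm_sq_eq_re_inner ℂ, hh, ← ContinuousLinearMap.adjoint_inner_right,
      ← ContinuousLinearMap.star_eq_adjoint, hq1, ← mul_apply_eq_comp, hq2,
      ← ContinuousLinearMap.adjoint_inner_right q, ← ContinuousLinearMap.star_eq_adjoint, hq1]
    rfl
  have h3 : ∀ χ, ‖h χ χ‖ ≤ ‖V h‖ / √(k + 1) := fun χ => by
    rw [le_div_iff₀ (by positivity)]
    refine (abs_le_of_sq_le_sq' ?_ (norm_nonneg _)).2
    rw [mul_pow, Real.sq_sqrt (by positivity), mul_comm]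
    exact diag_le h1 χ
  have h4 : ∑ χ, ‖(Gᴴ * G) χ χ‖ ≤ √(Fintype.card m) * ‖V (D * D)‖ := by
    have h5 : ∑ χ, ‖(Gᴴ * G) χ χ‖ = (⟪V 1, V (D * D)⟫_ℂ).re := by
      rw [inner_V, conjTranspose_one, Matrix.one_mul, ← hG, trace_mul_comm, trace,
        Complex.re_sum]
      exact sum_congr rfl fun χ _ => congrArg Complex.re
        (Complex.norm_of_nonneg' (posSemidef_conjTranspose_mul_self G).diag_nonneg)
    have h6 : ‖V (1 : Matrix m m ℂ)‖ = √(Fintype.card m) := by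
      rw [@norm_eq_sqrt_re_inner ℂ, inner_V]
      simp
    rw [h5, ← h6]
    exact (Complex.re_le_norm _).trans (norm_inner_le_norm _ _)
  have h7 : ‖V h‖ ^ 2 ≤ ‖V h‖ / √(k + 1) * (√(Fintype.card m) * ‖V (D * D)‖) := by
    rw [h2, inner_V, trace]
    refine (Complex.re_le_norm _).trans ((norm_sum_le _ _).trans
      (le_trans ?_ (mul_le_mul_of_nonneg_left h4 (by positivity))))
    rw [mul_sum]
    refine sum_le_sum fun χ _ => ?_
    rw [diag_apply, mul_apply, sum_eq_single χ (fun ψ _ hψ => by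
      rw [conjTranspose_apply, not_not.mp (mt (diag h1 ψ χ) hψ), star_zero, zero_mul]) (by simp),
      norm_mul, conjTranspose_apply, norm_star]
    exact mul_le_mul_of_nonneg_right (h3 χ) (norm_nonneg _)
  have h8 : 68 * √(Fintype.card m) ≤ √(k + 1) := by
    refine Real.le_sqrt_of_sq_le ?_
    rw [mul_pow, Real.sq_sqrt (by positivity)]
    exact_mod_cast hk
  have h9 : 68 * ‖V h‖ ≤ ‖V (D * D)‖ := by
    rcases (norm_nonneg (V h)).eq_or_lt with h0 | h0
    · simp [← h0]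
    · rw [div_mul_eq_mul_div, le_div_iff₀ (by positivity), sq, mul_assoc,
        mul_le_mul_iff_right₀ h0] at h7
      refine le_of_mul_le_mul_right ?_ (by positivity : 0 < √(k + 1))
      nlinarith [norm_nonneg (V (D * D))]
  have h10 : av (fun i => adj k (eta k i)) (V (Gᴴ * G)) =
      (av (fun i => adj k (eta k i)) * (1 - q)) (V (Gᴴ * G)) + (68 : ℝ) • V h := by
    rw [hh, ← _root_.smul_apply, ← av_mul hq3, ← _root_.add_apply,
      ← mul_add, sub_add_cancel, mul_one]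
  rw [h10]
  refine (norm_add_le _ _).trans ?_
  have h11 := (ContinuousLinearMap.le_opNorm _ (V (Gᴴ * G))).trans
    (mul_le_mul_of_nonneg_right hq4 (norm_nonneg _))
  rw [norm_smul, Real.norm_ofNat]
  linarith

theorem bound {m : Type} [Fintype m] [DecidableEq m] (c : I × Fin 17 → Matrix m m ℂ) {C : ℝ}
    (hC : 0 ≤ C) (hc : ∀ i, opn (c i) ≤ C) (hk : 68 ^ 2 * Fintype.card m ≤ k + 1) :
    opn (∑ i, mat (eta k i.1 ^ i.2.val) ⊗ₖ c i) ≤ 66.5 * C := by
  refine ContinuousLinearMap.opNorm_le_bound _ (by positivity) fun v => ?_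
  obtain ⟨T, rfl⟩ := V_surj v
  obtain ⟨D, G, hD, rfl, hG⟩ := exists_polar T
  have hn : ‖V (D * G)‖ = ‖V (D * D)‖ := norm_V_eq (by
    rw [trace_mul_comm, conjTranspose_mul, conjTranspose_mul, hD, Matrix.mul_assoc,
      ← Matrix.mul_assoc G, hG, Matrix.mul_assoc, Matrix.mul_assoc])
  have h1 := sum_bound (G := G) hD hC hc fun i => (mat (eta k i.1 ^ i.2.val))ᵀ
  have h2 := norm_av_le hD hG hk
  simp only [av, _root_.sum_apply, ← map_pow, adj_V, sum_range,
    ← Fintype.sum_prod_type'] at h2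
  simp only [map_sum, _root_.sum_apply, kron_V, hn]
  refine (abs_le_of_sq_le_sq' (h1.trans ?_) (by positivity)).2
  have h3 : (Fintype.card (I × Fin 17) : ℝ) = 68 := by simp
  rw [h3]
  nlinarith [mul_le_mul_of_nonneg_left h2 (by positivity : 0 ≤ C ^ 2 * ‖V (D * D)‖),
    sq_nonneg (C * ‖V (D * D)‖)]

end Crest.Agent.R73
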