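import Crest.Agent.R137.Rep

/-!
Row 73: Cuntz families and the approximation property of the Cuntz algebra.
-/

set_option autoImplicit false
set_option linter.unusedVariables false
set_option linter.unusedSectionVars false

open Matrix Filter Topology Crest.Agent.R137
open scoped InnerProductSpace

namespace Crest.Agent.R73

variable {B : Type*} [CStarAlgebra B]

section Basic
variable {S X : Type} [Fintype S] [DecidableEq S] [Fintype X] [DecidableEq X]

lemma cuntz_mul {J : S → B} (hJ : IsCuntz J) (a c : S) (x : B) :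
    star (J a) * (J c * x) = if a = c then x else 0 := by
  rw [← mul_assoc, hJ.1]
  split_ifs <;> simp

lemma sum_conj {W : X → B} (hW : IsCuntz W) (x : B) :
    ∑ a, x * W a * star (x * W a) = x * star x := by
  have h : ∀ a, x * W a * star (x * W a) = x * (W a * star (W a)) * star x := fun a => by
    simp only [star_mul, mul_assoc]
  simp only [h, ← Finset.mul_sum, ← Finset.sum_mul, hW.2, mul_one]

lemma cuntz_prod {J : S → B} {W : X → B} (hJ : IsCuntz J) (hW : IsCuntz W) :
    IsCuntz fun p : S × X => J p.1 * W p.2 := by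
  refine ⟨fun p q => ?_, ?_⟩
  · rw [star_mul, mul_assoc, cuntz_mul hJ]
    by_cases h : p.1 = q.1
    · simp [h, hW.1, Prod.ext_iff]
    · simp [h, Prod.ext_iff]
  · rw [Fintype.sum_prod_type, ← hJ.2]
    exact Finset.sum_congr rfl fun a _ => sum_conj hW (J a)

lemma cuntz_equiv {J : S → B} (hJ : IsCuntz J) (e : X ≃ S) : IsCuntz fun x => J (e x) :=
  ⟨fun a b => by simp [hJ.1], (e.sum_comp fun a => J a * star (J a)).trans hJ.2⟩

lemma cuntz_two {s₁ s₂ : B} (h1 : star s₁ * s₁ = 1) (h2 : star s₂ * s₂ = 1)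
    (h3 : s₁ * star s₁ + s₂ * star s₂ = 1) : IsCuntz fun b : Bool => cond b s₁ s₂ := by
  have h4 : star s₂ * s₁ = 0 := by
    refine (CStarRing.star_mul_self_eq_zero_iff _).mp ?_
    have := congrArg (fun x => star s₁ * x * s₁) h3
    simpa [mul_add, add_mul, ← mul_assoc, h1, mul_assoc _ (star s₁)] using this
  have h5 : star s₁ * s₂ = 0 := by simpa using congrArg star h4
  exact ⟨fun a b => by cases a <;> cases b <;> simp [*], by simp [h3]⟩

lemma hasCuntz {s : Bool → B} (hs : IsCuntz s) : HasCuntz B := by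
  have h : ∀ n, ∃ T : Fin (n + 1) → B, IsCuntz T := fun n => by
    induction n with
    | zero => exact ⟨fun _ => 1, fun a b => by simp [Fin.ext_iff], by simp⟩
    | succ n ih =>
      obtain ⟨T, hT⟩ := ih
      refine ⟨Fin.cons (s true) fun i => s false * T i, fun a b => ?_, ?_⟩
      · refine Fin.cases ?_ (fun a => ?_) a <;> refine Fin.cases ?_ (fun b => ?_) b <;>
          simp [hs.1, hT.1, mul_assoc, cuntz_mul hs, (Fin.succ_ne_zero _).symm]
      · rw [← hs.2, Fin.sum_univ_succ]
        simp only [Fin.cons_zero, Fin.cons_succ, sum_conj hT, Fintype.sum_bool]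
  intro S _ _ _
  obtain ⟨T, hT⟩ := h (Fintype.card S - 1)
  exact ⟨_, cuntz_equiv hT (Fintype.equivFinOfCardEq
    (Nat.succ_pred_eq_of_pos Fintype.card_pos).symm)⟩

/-- Matrices inside the algebra. -/
noncomputable def iotaL {T : S → B} (hT : IsCuntz T) : Matrix S S ℂ →⋆ₐ[ℂ] B where
  toFun M := iota T M 1
  map_one' := iota_one hT
  map_mul' M N := by rw [iota_mul hT, one_mul]
  map_zero' := by simp
  map_add' := by simp
  commutes' c := by simp [Algebra.algebraMap_eq_smul_one, iota_one hT]
  map_star' M := by rw [star_iota, star_one, star_eq_conjTranspose]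

/-- The endomorphism of a Cuntz family. -/
noncomputable def iotaR {T : S → B} (hT : IsCuntz T) : B →⋆ₐ[ℂ] B where
  toFun x := iota T 1 x
  map_one' := iota_one hT
  map_mul' M N := by rw [iota_mul hT, one_mul]
  map_zero' := by simp
  map_add' := by simp
  commutes' c := by simp [Algebra.algebraMap_eq_smul_one, iota_one hT]
  map_star' M := by rw [star_iota, conjTranspose_one]

lemma norm_iota_unitary {T : S → B} (hT : IsCuntz T) {M : Matrix S S ℂ} (hM : star M * M = 1)
    (x : B) : ‖iota T M x‖ ≤ ‖x‖ := by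
  have h1 : star (iota T M x) * iota T M x = iotaR hT (star x * x) := by
    rw [star_iota, iota_mul hT, ← star_eq_conjTranspose, hM]
    rfl
  have h2 := NonUnitalStarAlgHom.norm_apply_le (iotaR hT) (star x * x)
  rw [← h1, CStarRing.norm_star_mul_self, CStarRing.norm_star_mul_self] at h2
  exact (mul_self_le_mul_self_iff (norm_nonneg _) (norm_nonneg _)).mpr h2

/-- The operator norm of a matrix. -/
noncomputable def opn (M : Matrix S S ℂ) : ℝ := ‖toEuclideanCLM (n := S) (𝕜 := ℂ) M‖

lemma norm_iota_le [Nonempty S] (hB : HasCuntz B) {y : S → B} (hy : ∑ a, y a * star (y a) = 1)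
    (M : Matrix S S ℂ) : ‖iota y M 1‖ ≤ opn M := by
  obtain ⟨v, hv⟩ := hB S
  let Y := ∑ a, y a * star (v a)
  have h1 : ∀ a, Y * v a = y a := fun a => by simp [Y, Finset.sum_mul, mul_assoc, hv.1]
  have h2 : Y * star Y = 1 := by
    rw [← hy]
    simp only [Y, star_sum, star_mul, star_star, Finset.mul_sum, ← mul_assoc]
    exact Finset.sum_congr rfl fun a _ => by rw [h1]
  have h3 : ‖Y‖ ≤ 1 := by
    have h4 := CStarRing.norm_self_mul_star (x := Y)
    rw [h2] at h4
    nlinarith [norm_nonneg Y, IsStarProjection.norm_le (1 : B) (.one B)]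
  have h4 : iota y M 1 = Y * iota v M 1 * star Y := by
    simp only [iota_apply, Finset.mul_sum, Finset.sum_mul, mul_smul_comm, smul_mul_assoc, mul_one,
      ← mul_assoc, h1, mul_assoc _ (star (v _)), ← star_mul]
  have h5 : ‖iota v M 1‖ ≤ opn M := by
    have := NonUnitalStarAlgHom.norm_apply_le ((iotaL hv).comp
      ((toEuclideanCLM (n := S) (𝕜 := ℂ)).symm : _ →⋆ₐ[ℂ] _)) (toEuclideanCLM (𝕜 := ℂ) M)
    simpa using! this
  rw [h4]
  refine (norm_mul_le_of_le (norm_mul_le_of_le h3 h5) ((norm_star Y).trans_le h3)).trans ?_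
  simp

lemma opn_compress {H : Type*} [NormedAddCommGroup H] [InnerProductSpace ℂ H] {e : S → H}
    (he : Orthonormal ℂ e) (T : H →L[ℂ] H) : opn (of fun a b => ⟪e a, T (e b)⟫_ℂ) ≤ ‖T‖ := by
  refine ContinuousLinearMap.opNorm_le_bound _ (norm_nonneg _) fun v => ?_
  have h1 : ‖∑ b, v b • e b‖ = ‖v‖ := by
    have := he.orthogonalFamily.norm_sum (fun b => v b) Finset.univ
    rw [← EuclideanSpace.norm_sq_eq] at this
    exact (pow_left_inj₀ (norm_nonneg _) (norm_nonneg _) two_ne_zero).mp this
  rw [← h1]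
  refine le_trans ?_ (T.le_opNorm _)
  refine (pow_le_pow_iff_left₀ (norm_nonneg _) (norm_nonneg _) two_ne_zero).mp ?_
  refine le_trans (le_of_eq ?_) (he.sum_inner_products_le (s := Finset.univ) _)
  rw [EuclideanSpace.norm_sq_eq]
  refine Finset.sum_congr rfl fun a _ => ?_
  simp [mulVec, dotProduct, inner_sum, mul_comm, inner_smul_right]

end Basic

/-! ### Operators on `ℓ²` -/

/-- The Hilbert space with basis `Ω`. -/
noncomputable abbrev L2 (Ω : Type) := lp (fun _ : Ω => ℂ) 2

section L2
variable {Ω : Type}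

/-- The standard basis. -/
noncomputable def bas (Ω : Type) : HilbertBasis Ω ℂ (L2 Ω) := default

/-- The isometry of an injective map. -/
noncomputable def iso (f : Ω → Ω) (hf : Function.Injective f) : L2 Ω →L[ℂ] L2 Ω :=
  ((bas Ω).orthonormal.comp f hf).orthogonalFamily.linearIsometry.toContinuousLinearMap ∘L
    (bas Ω).repr.toContinuousLinearEquiv.toContinuousLinearMap

lemma iso_bas (f : Ω → Ω) (hf : Function.Injective f) (j : Ω) :
    iso f hf (bas Ω j) = bas Ω (f j) := by
  classical
  change ((bas Ω).orthonormal.comp f hf).orthogonalFamily.linearIsometry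
    ((bas Ω).repr (bas Ω j)) = _
  rw [(bas Ω).repr_self, OrthogonalFamily.linearIsometry_apply_single]
  simp

lemma ext_bas {S T : L2 Ω →L[ℂ] L2 Ω} (h : ∀ k, S (bas Ω k) = T (bas Ω k)) : S = T := by
  refine ContinuousLinearMap.ext_on (s := Set.range (bas Ω))
    (Submodule.dense_iff_topologicalClosure_eq_top.mpr (bas Ω).dense_span) ?_
  rintro _ ⟨k, rfl⟩
  exact h k

lemma cuntz_iso {S : Type} [Fintype S] [DecidableEq S] (φ : S × Ω ≃ Ω) :
    IsCuntz fun a : S => iso (fun j => φ (a, j)) fun j k h => by simpa using h := by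
  classical
  have hb := orthonormal_iff_ite.mp (bas Ω).orthonormal
  set T := fun a : S => iso (fun j => φ (a, j)) fun j k h => by simpa using h
  have hT : ∀ a j, T a (bas Ω j) = bas Ω (φ (a, j)) := fun a j => iso_bas _ _ j
  have h1 : ∀ a c, star (T a) * T c = if a = c then 1 else 0 := fun a c => by
    refine ext_bas fun k => (bas Ω).repr.injective (lp.ext (funext fun j => ?_))
    rw [(bas Ω).repr_apply_apply, (bas Ω).repr_apply_apply, mul_apply_eq_comp,
      ContinuousLinearMap.star_eq_adjoint, ContinuousLinearMap.adjoint_inner_right, hT, hT, hb]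
    by_cases h : a = c
    · simp [h, hb]
    · simp [h]
  refine ⟨h1, ext_bas fun k => ?_⟩
  obtain ⟨⟨c, k⟩, rfl⟩ := φ.surjective k
  have h2 : ∀ a, (T a * star (T a)) (bas Ω (φ (c, k))) =
      if a = c then bas Ω (φ (c, k)) else 0 := by
    intro a
    rw [← hT, ← mul_apply_eq_comp, mul_assoc, h1]
    split_ifs with h
    · simp [h]
    · simp
  simp [h2]

/-- The permutation representation. -/
noncomputable def permRep (Ω : Type) : Equiv.Perm Ω →* unitary (L2 Ω →L[ℂ] L2 Ω) where
  toFun σ := ⟨iso σ σ.injective, by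
    have h := cuntz_iso ((Equiv.uniqueProd Ω Unit).trans σ)
    exact ⟨by simpa using h.1 () (), by simpa using h.2⟩⟩
  map_one' := Subtype.ext (ext_bas fun k => iso_bas _ (1 : Equiv.Perm Ω).injective k)
  map_mul' σ τ := Subtype.ext (ext_bas fun k => by
    simp [iso_bas])

lemma permRep_bas (σ : Equiv.Perm Ω) (j : Ω) :
    (permRep Ω σ : L2 Ω →L[ℂ] L2 Ω) (bas Ω j) = bas Ω (σ j) := iso_bas _ σ.injective j

end L2

/-! ### The approximation property -/

section CPAP
variable (s : Bool → B)

/-- Words. -/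
def wd (l : List Bool) : B := (l.map s).prod

@[simp] lemma wd_nil : wd s [] = 1 := rfl
@[simp] lemma wd_cons (a : Bool) (l : List Bool) : wd s (a :: l) = s a * wd s l := rfl
lemma wd_concat (a : Bool) (l : List Bool) : wd s (l ++ [a]) = wd s l * s a := by simp [wd]

lemma sum_cons {M : Type*} [AddCommMonoid M] {n : ℕ} (f : List Bool → M) :
    ∑ μ : Fin (n + 1) → Bool, f (List.ofFn μ) = ∑ a, ∑ μ : Fin n → Bool, f (a :: List.ofFn μ) := by
  rw [← (Fin.consEquiv fun _ => Bool).sum_comp, Fintype.sum_prod_type]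
  simp [Fin.consEquiv]

variable {s}

lemma sum_wd (hs : IsCuntz s) (n : ℕ) :
    ∑ μ : Fin n → Bool, wd s (List.ofFn μ) * star (wd s (List.ofFn μ)) = 1 := by
  induction n with
  | zero => simp
  | succ n ih =>
    rw [sum_cons fun l => wd s l * star (wd s l), ← hs.2]
    refine Finset.sum_congr rfl fun a _ => ?_
    simp only [wd_cons, star_mul, mul_assoc (s a)]
    simp only [← mul_assoc (wd s _), ← Finset.mul_sum, ← Finset.sum_mul, ih, one_mul]

lemma mem_span_wd (hs : IsCuntz s) {x : B} (hx : x ∈ StarAlgebra.adjoin ℂ (Set.range s)) :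
    x ∈ Submodule.span ℂ (Set.range fun p : List Bool × List Bool =>
      wd s p.1 * star (wd s p.2)) := by
  set N := Submodule.span ℂ (Set.range fun p : List Bool × List Bool => wd s p.1 * star (wd s p.2))
  have hN : ∀ a b, wd s a * star (wd s b) ∈ N := fun a b => Submodule.subset_span ⟨(a, b), rfl⟩
  have h : ∀ x : B, (∀ a b, x * (wd s a * star (wd s b)) ∈ N) → ∀ y ∈ N, x * y ∈ N :=
    fun x hx y hy => Submodule.span_le (p := N.comap (LinearMap.mulLeft ℂ x)).mpr (by
      rintro _ ⟨p, rfl⟩
      exact hx _ _) hy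
  have hx' : x ∈ Algebra.adjoin ℂ (Set.range s ∪ star (Set.range s)) := by
    rw [← StarAlgebra.adjoin_toSubalgebra]
    exact hx
  suffices H : ∀ y ∈ N, x * y ∈ N by simpa using H _ (hN [] [])
  clear hx
  induction hx' using Algebra.adjoin_induction with
  | mem x hx =>
    refine h x fun a b => ?_
    rcases hx with ⟨i, rfl⟩ | ⟨i, hi⟩
    · simpa [mul_assoc] using hN (i :: a) b
    · rw [← star_star x, ← hi]
      rcases a with _ | ⟨c, a⟩
      · simpa [wd_concat] using hN [] (b ++ [i])
      · rw [wd_cons, mul_assoc, cuntz_mul hs]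
        split_ifs
        · exact hN _ _
        · exact zero_mem _
  | algebraMap r => exact fun y hy => Algebra.smul_def r y ▸ N.smul_mem r hy
  | add x y _ _ hx hy => exact fun z hz => add_mul x y z ▸ add_mem (hx z hz) (hy z hz)
  | mul x y _ _ hx hy => exact fun z hz => mul_assoc x y z ▸ hx _ (hy z hz)

variable (s) (w : B →ₗ[ℂ] ℂ)

/-- A block of the approximating map. -/
noncomputable def EE (n n' : ℕ) (x : B) : B :=
  ∑ μ : Fin n → Bool, ∑ ν : Fin n' → Bool, w (star (wd s (List.ofFn μ)) * x * wd s (List.ofFn ν)) •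
    (wd s (List.ofFn μ) * star (wd s (List.ofFn ν)))

variable {s w}

lemma EE_left (hs : IsCuntz s) (n n' : ℕ) (a : Bool) (x : B) :
    EE s w (n + 1) n' (s a * x) = s a * EE s w n n' x := by
  rw [EE, sum_cons fun l => ∑ ν : Fin n' → Bool, w (star (wd s l) * (s a * x) *
    wd s (List.ofFn ν)) • (wd s l * star (wd s (List.ofFn ν))), Finset.sum_eq_single a]
  · simp [EE, Finset.mul_sum, mul_assoc, cuntz_mul hs]
  · intro b _ hb
    simp [mul_assoc, cuntz_mul hs, hb]
  · simp

lemma EE_right (hs : IsCuntz s) (n n' : ℕ) (a : Bool) (x : B) :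
    EE s w n (n' + 1) (x * star (s a)) = EE s w n n' x * star (s a) := by
  rw [EE, EE, Finset.sum_mul]
  refine Finset.sum_congr rfl fun μ _ => ?_
  rw [sum_cons fun l => w (star (wd s (List.ofFn μ)) * (x * star (s a)) * wd s l) •
    (wd s (List.ofFn μ) * star (wd s l)), Finset.sum_eq_single a]
  · simp [Finset.sum_mul, mul_assoc, cuntz_mul hs]
  · intro b _ hb
    simp [mul_assoc, cuntz_mul hs, hb.symm]
  · simp

lemma EE_wd (hs : IsCuntz s) (hw : ∀ a b, w (star (wd s a) * wd s b) = if a = b then 1 else 0)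
    (n n' : ℕ) (a b : List Bool) : EE s w (n + a.length) (n' + b.length)
      (wd s a * star (wd s b)) = if n = n' then wd s a * star (wd s b) else 0 := by
  induction a with
  | cons c a ih =>
    rw [List.length_cons, ← add_assoc, wd_cons, mul_assoc, EE_left hs, ih]
    simp
  | nil =>
    induction b with
    | cons c b ih =>
      rw [List.length_cons, ← add_assoc, wd_cons, star_mul, ← mul_assoc, EE_right hs, ih]
      simp
    | nil =>
      simp only [EE, List.length_nil, add_zero, wd_nil, star_one, mul_one, hw]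
      split_ifs with h
      · subst h
        simp [List.ofFn_injective.eq_iff, sum_wd hs]
      · refine Finset.sum_eq_zero fun μ _ => Finset.sum_eq_zero fun ν _ => ?_
        rw [if_neg fun h' => h (by simpa using congrArg List.length h'), zero_smul]

/-- The index set of the approximating map. -/
abbrev KK (m : ℕ) := Σ i : Fin (m + 1), Fin (m + i) → Bool

variable (s w)

/-- The frame. -/
noncomputable def fr (m : ℕ) (p : KK m) : B := ((√(m + 1))⁻¹ : ℝ) • wd s (List.ofFn p.2)

/-- The coefficients. -/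
noncomputable def co (m : ℕ) (x : B) : Matrix (KK m) (KK m) ℂ :=
  of fun p q => w (star (wd s (List.ofFn p.2)) * x * wd s (List.ofFn q.2))

variable {s w}

lemma fr_mul (m : ℕ) (p q : KK m) : fr s m p * star (fr s m q) =
    ((m + 1 : ℝ)⁻¹ : ℝ) • (wd s (List.ofFn p.2) * star (wd s (List.ofFn q.2))) := by
  simp only [fr, star_smul, star_trivial, smul_mul_smul_comm, ← mul_inv]
  rw [Real.mul_self_sqrt (by positivity)]

lemma sum_fr (hs : IsCuntz s) (m : ℕ) : ∑ p, fr s m p * star (fr s m p) = 1 := by
  simp only [fr_mul, ← Finset.smul_sum, Fintype.sum_sigma, sum_wd hs, Finset.sum_const,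
    Finset.card_univ, Fintype.card_fin]
  rw [← Nat.cast_smul_eq_nsmul ℝ, smul_smul, Nat.cast_succ, inv_mul_cancel₀ (by positivity),
    one_smul]

lemma iota_co (m : ℕ) (x : B) : iota (fr s m) (co s w m x) 1 = ((m + 1 : ℝ)⁻¹ : ℝ) •
    ∑ i ∈ Finset.range (m + 1), ∑ j ∈ Finset.range (m + 1), EE s w (m + i) (m + j) x := by
  simp only [iota_apply, mul_one, fr_mul, smul_comm _ (m + 1 : ℝ)⁻¹, ← Finset.smul_sum,
    Fintype.sum_sigma, Finset.sum_range]
  refine congrArg _ (Finset.sum_congr rfl fun i _ => ?_)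
  rw [Finset.sum_comm]
  rfl

lemma tendsto_wd (hs : IsCuntz s) (hw : ∀ a b, w (star (wd s a) * wd s b) = if a = b then 1 else 0)
    (a b : List Bool) : Tendsto (fun m => iota (fr s m) (co s w m (wd s a * star (wd s b))) 1)
      atTop (𝓝 (wd s a * star (wd s b))) := by
  set x := wd s a * star (wd s b)
  let c : ℕ → ℕ := fun m => ((Finset.range (m + 1)).filter fun i =>
    a.length ≤ i + b.length ∧ i + b.length ≤ m + a.length).card
  have h1 : ∀ m, a.length + b.length ≤ m →
      iota (fr s m) (co s w m x) 1 = ((c m : ℝ) / (m + 1)) • x := fun m hm => by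
    have h2 : ∀ i j, EE s w (m + i) (m + j) x = if j + a.length = i + b.length then x else 0 := by
      intro i j
      have := EE_wd hs hw (m + i - a.length) (m + j - b.length) a b
      rw [Nat.sub_add_cancel (by omega), Nat.sub_add_cancel (by omega)] at this
      rw [this]
      exact if_congr (by omega) rfl rfl
    have h3 : ∀ i, ∑ j ∈ Finset.range (m + 1), EE s w (m + i) (m + j) x =
        if a.length ≤ i + b.length ∧ i + b.length ≤ m + a.length then x else 0 := fun i => by
      simp only [h2]
      split_ifs with h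
      · rw [Finset.sum_eq_single (i + b.length - a.length), if_pos (by omega)]
        · exact fun j _ hj => if_neg (by omega)
        · exact fun hj => (hj (Finset.mem_range.mpr (by omega))).elim
      · exact Finset.sum_eq_zero fun j hj => if_neg (by have := Finset.mem_range.mp hj; omega)
    simp only [iota_co, h3, ← Finset.sum_filter, Finset.sum_const]
    rw [← Nat.cast_smul_eq_nsmul ℝ, smul_smul, inv_mul_eq_div]
  have h4 : Tendsto (fun m : ℕ => (c m : ℝ) / (m + 1)) atTop (𝓝 1) := by
    have h5 := (tendsto_one_div_add_atTop_nhds_zero_nat (𝕜 := ℝ)).const_mul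
      (a.length + b.length : ℝ) |>.const_sub 1
    rw [mul_zero, sub_zero] at h5
    refine tendsto_of_tendsto_of_tendsto_of_le_of_le h5 tendsto_const_nhds (fun m => ?_) fun m => ?_
    · have h6 : m + 1 ≤ c m + a.length + b.length := by
        have := Finset.card_le_card (s := Finset.Ico a.length (m + 1 - b.length))
          (t := (Finset.range (m + 1)).filter fun i =>
            a.length ≤ i + b.length ∧ i + b.length ≤ m + a.length) fun i hi => by
          simp only [Finset.mem_Ico, Finset.mem_filter, Finset.mem_range] at hi ⊢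
          omega
        rw [Nat.card_Ico] at this
        simp only [c]
        omega
      have h7 : (m + 1 : ℝ) ≤ c m + a.length + b.length := by exact_mod_cast h6
      rw [mul_one_div, sub_le_iff_le_add, ← add_div, le_div_iff₀ (by positivity)]
      linarith
    · rw [div_le_one (by positivity)]
      have : c m ≤ m + 1 := (Finset.card_filter_le _ _).trans (Finset.card_range _).le
      rw [← Nat.cast_succ]
      exact Nat.cast_le.mpr this
  have h8 := h4.smul_const x
  rw [one_smul] at h8
  exact h8.congr' ((eventually_ge_atTop _).mono fun m hm => (h1 m hm).symm)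

lemma tendsto_all (hs : IsCuntz s)
    (hg : (StarAlgebra.adjoin ℂ (Set.range s)).topologicalClosure = ⊤)
    (hw : ∀ a b, w (star (wd s a) * wd s b) = if a = b then 1 else 0)
    (hc : ∀ m x, opn (co s w m x) ≤ ‖x‖) (x : B) :
    Tendsto (fun m => iota (fr s m) (co s w m x) 1) atTop (𝓝 x) := by
  let ψ : ℕ → B →ₗ[ℂ] B := fun m =>
    { toFun := fun x => iota (fr s m) (co s w m x) 1
      map_add' := fun x y => by
        simp [iota_apply, co, mul_add, add_mul, add_smul, Finset.sum_add_distrib]
      map_smul' := fun c x => by simp [iota_apply, co, Finset.smul_sum, mul_smul] }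
  have h0 : ∀ m x, ‖ψ m x‖ ≤ ‖x‖ := fun m x =>
    haveI : Nonempty (KK m) := ⟨⟨0, fun _ => true⟩⟩
    (norm_iota_le (hasCuntz hs) (sum_fr hs m) _).trans (hc m x)
  have h1 : ∀ y ∈ Submodule.span ℂ (Set.range fun p : List Bool × List Bool =>
      wd s p.1 * star (wd s p.2)), Tendsto (fun m => ψ m y) atTop (𝓝 y) := fun y hy => by
    induction hy using Submodule.span_induction with
    | mem y hy =>
      obtain ⟨p, rfl⟩ := hy
      exact tendsto_wd hs hw p.1 p.2
    | zero => simp
    | add y z _ _ hy hz => simpa using hy.add hz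
    | smul c y _ hy => simpa using hy.const_smul c
  refine Metric.tendsto_nhds.mpr fun ε hε => ?_
  have hx : x ∈ (StarAlgebra.adjoin ℂ (Set.range s)).topologicalClosure := hg ▸ trivial
  obtain ⟨y, hy, hy'⟩ := Metric.mem_closure_iff.mp hx (ε / 3) (by positivity)
  filter_upwards [Metric.tendsto_nhds.mp (h1 y (mem_span_wd hs hy)) (ε / 3) (by positivity)]
    with m hm
  have h2 := h0 m (x - y)
  rw [map_sub, ← dist_eq_norm, ← dist_eq_norm] at h2
  have h3 := dist_triangle4 (ψ m x) (ψ m y) y x
  rw [dist_comm y] at h3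
  change dist (ψ m x) x < ε
  linarith

theorem cpap {O : Type} [CStarAlgebra O] {s : Bool → O} (hs : IsCuntz s)
    (hg : (StarAlgebra.adjoin ℂ (Set.range s)).topologicalClosure = ⊤)
    (hu : ∀ (C : Type) [CStarAlgebra C] (t : Bool → C), IsCuntz t →
      ∃ φ : O →⋆ₐ[ℂ] C, ∀ a, φ (s a) = t a)
    {F : Type} [Finite F] (x : F → O) {ε : ℝ} (hε : 0 < ε) :
    ∃ (m : ℕ) (y : KK m → O) (c : F → Matrix (KK m) (KK m) ℂ), ∑ p, y p * star (y p) = 1 ∧
      ∀ i, opn (c i) ≤ ‖x i‖ ∧ ‖x i - iota y (c i) 1‖ ≤ ε := by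
  classical
  let Ω := ℤ × (ℕ → Bool)
  let φ : Bool × Ω ≃ Ω :=
    { toFun := fun p => (p.2.1 + 1, fun n => Nat.casesOn n p.1 p.2.2)
      invFun := fun p => (p.2 0, p.1 - 1, fun n => p.2 (n + 1))
      left_inv := fun p => by simp
      right_inv := fun p => Prod.ext (by simp) (funext fun n => by cases n <;> rfl) }
  obtain ⟨ρ, hρ⟩ := hu _ _ (cuntz_iso φ)
  let pt : List Bool → Ω := fun l => l.foldr (fun a p => φ (a, p)) (0, fun _ => true)
  have hl : ∀ l, (pt l).1 = l.length := fun l => by
    induction l with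
    | nil => rfl
    | cons a l ih => exact congrArg (· + 1) ih
  have hl' : ∀ l l', pt l = pt l' → l.length = l'.length := fun l l' h => by
    have := congrArg Prod.fst h
    rw [hl, hl] at this
    exact_mod_cast this
  have hpt : Function.Injective pt := fun l => by
    induction l with
    | nil => exact fun l' h => (List.length_eq_zero_iff.mp (hl' _ _ h).symm).symm
    | cons a l ih =>
      rintro (_ | ⟨b, l'⟩) h
      · simpa using hl' _ _ h
      · obtain ⟨h1, h2⟩ := Prod.mk.inj (φ.injective h)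
        rw [h1, ih h2]
  have h1 : ∀ l, ρ (wd s l) (bas Ω (pt [])) = bas Ω (pt l) := fun l => by
    induction l with
    | nil => simp
    | cons a l ih => rw [wd_cons, map_mul, mul_apply_eq_comp, ih, hρ, iso_bas]; rfl
  let w : O →ₗ[ℂ] ℂ :=
    { toFun := fun x => ⟪bas Ω (pt []), ρ x (bas Ω (pt []))⟫_ℂ
      map_add' := fun x y => by simp [inner_add_right]
      map_smul' := fun c x => by simp [inner_smul_right] }
  have h2 : ∀ a b x, w (star (wd s a) * x * wd s b) = ⟪bas Ω (pt a), ρ x (bas Ω (pt b))⟫_ℂ := by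
    intro a b x
    change ⟪_, ρ _ _⟫_ℂ = _
    rw [map_mul, map_mul, map_star, mul_apply_eq_comp, mul_apply_eq_comp,
      ContinuousLinearMap.star_eq_adjoint, ContinuousLinearMap.adjoint_inner_right, h1, h1]
  have hc : ∀ m x, opn (co s w m x) ≤ ‖x‖ := fun m x => by
    have h3 : Function.Injective fun p : KK m => pt (List.ofFn p.2) := by
      rintro ⟨i, μ⟩ ⟨j, ν⟩ h
      have h4 := hpt h
      obtain rfl : i = j := Fin.ext (by simpa using congrArg List.length h4)
      rw [show μ = ν from List.ofFn_injective h4]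
    refine le_trans (le_of_eq (congrArg opn ?_)) ((opn_compress
      ((bas Ω).orthonormal.comp _ h3) (ρ x)).trans (NonUnitalStarAlgHom.norm_apply_le ρ x))
    ext p q
    exact h2 _ _ _
  have h3 := tendsto_all hs hg (w := w) (fun a b => by
    have := h2 a b 1
    rw [mul_one] at this
    simp [this, orthonormal_iff_ite.mp (bas Ω).orthonormal, hpt.eq_iff]) hc
  obtain ⟨m, hm⟩ := (eventually_all.mpr fun i => Metric.tendsto_nhds.mp (h3 (x i)) ε hε).exists
  exact ⟨m, fr s m, fun i => co s w m (x i), sum_fr hs m, fun i =>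
    ⟨hc _ _, by rw [← dist_eq_norm, dist_comm]; exact (hm i).le⟩⟩

end CPAP

end Crest.Agent.R73
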