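import Crest.Agent.R73.Main

/-!
Row 73: the final argument.
-/

set_option autoImplicit false
set_option linter.unusedVariables false
set_option linter.unusedSectionVars false

open Matrix Crest.Agent.R137 Finset Filter Topology Crest.AnalysisR.CStarEmbedding
open scoped Kronecker

namespace Crest.Agent.R73

lemma propagate {Q H H' : Type} [CStarAlgebra Q] [Group H] [Group H'] (Φ : GG × H →* unitary Q)
    (Φ' : GG × H' →* unitary Q) (η : I → H) (η' : I → H') (K : F → Q)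
    (hK : ∀ i, star (K 0) * K i = if i = 0 then 17 else 0)
    (h1 : ∀ g i, (Φ' (g, η' none) : Q) * K i = K (i + 1) * Φ (g, 1))
    (h2 : ∀ g i j, (Φ' (g, η' (some (j + 1))) : Q) * K i =
      K i * Φ (g, η none ^ (if j + 1 = 0 then i.val else 0) * η (some j)))
    {q : Q} (hq : q ≠ 0) (hq' : ∀ i, (Φ (gam i, η i) : Q) * q = q) :
    68 ≤ ‖av fun i => Φ' (gam i, η' i)‖ := by
  have hm : ∀ a b, (Φ a : Q) * Φ b = Φ (a * b) := fun a b => by simp
  refine le_norm_av (x := ∑ i, K i * Φ (gam none ^ i.val * gen1 none, 1) * q) (fun h => ?_) ?_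
  · have h3 := congrArg (fun x => star (Φ (gen1 none, 1) : Q) * (star (K 0) * x)) h
    simp only [mul_sum, ← mul_assoc (star (K 0)), hK, ite_mul, zero_mul, mul_ite, mul_zero,
      sum_ite_eq', mem_univ, if_true, ZMod.val_zero, pow_zero, one_mul] at h3
    rw [mul_assoc, ← map_ofNat (algebraMap ℝ Q) 17, ← Algebra.smul_def, mul_smul_comm, ← mul_assoc,
      Unitary.coe_star_mul_self, one_mul, smul_eq_zero] at h3
    simp [hq] at h3
  · rintro (_ | j)
    · rw [mul_sum]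
      refine Eq.trans (sum_congr rfl fun i _ => ?_) (Equiv.sum_comp (Equiv.addRight (1 : F))
        fun i => K i * Φ (gam none ^ i.val * gen1 none, 1) * q)
      rw [← mul_assoc, ← mul_assoc, h1, mul_assoc (K _), hm, Prod.mk_mul_mk, mul_one, ← mul_assoc,
        ← pow_succ', pow_eq_pow_mod _ (rel_gam.1 none)]
      simp [ZMod.val_add, ZMod.val_one_eq_one_mod]
    · obtain ⟨j, rfl⟩ : ∃ i, j = i + 1 := ⟨j - 1, by simp⟩
      have h4 : ∀ n : ℕ, (Φ (gam none ^ n, η none ^ n) : Q) * q = q := fun n => by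
        induction n with
        | zero => simp [Prod.mk_one_one]
        | succ n ih => rw [pow_succ, pow_succ, ← Prod.mk_mul_mk, ← hm, mul_assoc, hq', ih]
      rw [mul_sum]
      refine sum_congr rfl fun i _ => ?_
      rw [← mul_assoc, ← mul_assoc, h2, mul_assoc (K _), hm, Prod.mk_mul_mk, gam_rel, mul_one,
        ← one_mul (η none ^ _ * _), ← Prod.mk_mul_mk, ← Prod.mk_mul_mk, ← hm, ← hm]
      simp only [mul_assoc, hq', h4]

variable {ω : Ultrafilter ℕ} {O Q : Type} [CStarAlgebra O] [CStarAlgebra Q] {j : Bdd O →⋆ₐ[ℂ] Q}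

lemma exists_asym (hj : ∀ f, Tendsto (fun n => ‖f.1 n‖) (ω : Filter ℕ) (𝓝 ‖j f‖))
    {L : Type} [Group L] (ψ : L → Bdd O)
    (h1 : Tendsto (fun n => ‖(ψ 1).1 n - 1‖) (ω : Filter ℕ) (𝓝 0))
    (h2 : ∀ a b, Tendsto (fun n => ‖(ψ (a * b)).1 n - (ψ a).1 n * (ψ b).1 n‖) (ω : Filter ℕ) (𝓝 0))
    (h3 : ∀ a, Tendsto (fun n => ‖(ψ a⁻¹).1 n - star ((ψ a).1 n)‖) (ω : Filter ℕ) (𝓝 0)) :
    ∃ Φ : L →* unitary Q, ∀ a, (Φ a : Q) = j (ψ a) := by
  have h : ∀ f g : Bdd O, Tendsto (fun n => ‖f.1 n - g.1 n‖) (ω : Filter ℕ) (𝓝 0) → j f = j g :=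
    fun f g h => by
      rw [← sub_eq_zero, ← map_sub, ← norm_eq_zero]
      exact tendsto_nhds_unique (hj (f - g)) h
  have e1 : j (ψ 1) = 1 := (h _ 1 h1).trans (map_one j)
  have e2 : ∀ a b, j (ψ (a * b)) = j (ψ a) * j (ψ b) := fun a b =>
    (h _ (ψ a * ψ b) (h2 a b)).trans (map_mul j _ _)
  have e3 : ∀ a, j (ψ a⁻¹) = star (j (ψ a)) := fun a =>
    (h _ (star (ψ a)) (h3 a)).trans (map_star j _)
  exact ⟨MonoidHom.mk' (fun a => ⟨j (ψ a), by rw [← e3, ← e2, inv_mul_cancel, e1],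
    by rw [← e3, ← e2, mul_inv_cancel, e1]⟩) fun a b => Subtype.ext (e2 a b), fun a => rfl⟩

variable {A : Type} [CStarAlgebra A] (u : GG →* unitary A) (φ : ℕ → A → O) (J : F → O)

/-- The averaging operators. -/
noncomputable def MN (n k : ℕ) : O := ∑ i : I × Fin 17,
  iota (WW J k) (mat (eta k i.1 ^ i.2.val)) (φ n (u (gam i.1 ^ i.2.val)))

variable {φ J}

lemma exists_level (hj : ∀ f, Tendsto (fun n => ‖f.1 n‖) (ω : Filter ℕ) (𝓝 ‖j f‖))
    (hφ : IsUltrapowerEmbedding ω A O φ) (hJ : IsCuntz J) (κ : ℕ → ℕ) :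
    ∃ (Φ : GG × (∀ n, HL (κ n)) →* unitary Q) (ψ : GG × (∀ n, HL (κ n)) → Bdd O),
      (∀ a, (Φ a : Q) = j (ψ a)) ∧
      (∀ a n, (ψ a).1 n = iota (WW J (κ n)) (mat (a.2 n)) (φ n (u a.1))) ∧
      Tendsto (fun n => ‖MN u φ J n (κ n)‖) (ω : Filter ℕ)
        (𝓝 ‖av fun i => Φ (gam i, fun n => eta (κ n) i)‖) := by
  have h0 : ∀ k (g : HL k) (x : O), ‖iota (WW J k) (mat g) x‖ ≤ ‖x‖ := fun k g x =>
    norm_iota_unitary (cuntz_WW hJ k) (mat_unit g) x
  let ψ : GG × (∀ n, HL (κ n)) → Bdd O := fun a =>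
    ⟨fun n => iota (WW J (κ n)) (mat (a.2 n)) (φ n (u a.1)),
      (hφ.1 (u a.1)).imp fun C hC n => (h0 ..).trans (hC n)⟩
  obtain ⟨Φ, hΦ⟩ := exists_asym hj ψ
    (squeeze_zero (fun _ => norm_nonneg _) (fun n => by
      refine le_of_eq_of_le (congrArg norm ?_) (h0 (κ n) 1 _)
      simp [ψ, mat_one, iota_one (cuntz_WW hJ _)]) hφ.2.2.2.2.2.1)
    (fun a b => squeeze_zero (fun _ => norm_nonneg _) (fun n => by
      refine le_of_eq_of_le (congrArg norm ?_) (h0 (κ n) (a.2 n * b.2 n) _)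
      simp [ψ, mat_mul, iota_mul (cuntz_WW hJ _)]) (hφ.2.2.2.1 (u a.1) (u b.1)))
    (fun a => squeeze_zero (fun _ => norm_nonneg _) (fun n => by
      refine le_of_eq_of_le (congrArg norm ?_) (h0 (κ n) (a.2 n)⁻¹ _)
      have : (mat (a.2 n))ᴴ = mat (a.2 n)⁻¹ := by
        rw [← Matrix.mul_one (_ᴴ), ← mat_one, ← mul_inv_cancel (a.2 n), mat_mul, ← Matrix.mul_assoc,
          ← star_eq_conjTranspose, mat_unit, Matrix.one_mul]
      simp [ψ, star_iota, this, ← Unitary.star_eq_inv]) (hφ.2.2.2.2.1 (u a.1)))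
  refine ⟨Φ, ψ, hΦ, fun _ _ => rfl, ?_⟩
  simp only [av, ← map_pow, hΦ, ← map_sum, sum_range, ← Fintype.sum_prod_type']
  refine (hj _).congr fun n => ?_
  simp [MN, ψ]

lemma tendsto_sum (hφ : IsUltrapowerEmbedding ω A O φ) {ι : Type} (s : Finset ι) (c : ι → ℂ)
    (a : ι → A) : Tendsto (fun n => ‖φ n (∑ i ∈ s, c i • a i) - ∑ i ∈ s, c i • φ n (a i)‖)
      (ω : Filter ℕ) (𝓝 0) := by
  classical
  induction s using Finset.induction_on with
  | empty => simpa using hφ.2.2.2.2.2.2 0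
  | insert i s hi ih =>
    have h := ((hφ.2.1 (c i • a i) (∑ i ∈ s, c i • a i)).add (hφ.2.2.1 (c i) (a i))).add ih
    simp only [add_zero] at h
    refine squeeze_zero (fun _ => norm_nonneg _) (fun n => ?_) h
    refine le_of_eq_of_le (congrArg norm ?_) (norm_add₃_le)
    rw [sum_insert hi, sum_insert hi]
    abel

theorem no_embedding {u : GG →* unitary A} (hu : IsFullGroupCStar A u) {s₁ s₂ : O}
    (hO : IsCuntzTwo O s₁ s₂) (hφ : IsUltrapowerEmbedding ω A O φ) : False := by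
  have hs := cuntz_two hO.1 hO.2.1 hO.2.2.1
  obtain ⟨J, hJ⟩ := hasCuntz hs F
  obtain ⟨Q, _, j, hj⟩ := exists_ultra ω O
  have h1 : ∀ᶠ n in (ω : Filter ℕ), 67 < ‖MN u φ J n 0‖ := by
    have h := (hφ.2.2.2.2.2.2 (∑ i : I × Fin 17, c0 (eta 0 i.1 ^ i.2.val) •
      (u (gam i.1 ^ i.2.val) : A))).sub (tendsto_sum hφ univ
      (fun i : I × Fin 17 => c0 (eta 0 i.1 ^ i.2.val)) fun i => (u (gam i.1 ^ i.2.val) : A))
    filter_upwards [h.eventually (lt_mem_nhds (a := 67) (by linarith [seed hu]))] with n hn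
    have h2 : MN u φ J n 0 = ∑ i : I × Fin 17,
        c0 (eta 0 i.1 ^ i.2.val) • φ n (u (gam i.1 ^ i.2.val)) := by
      simp [MN, iota_apply, WW, c0]
    rw [h2]
    exact hn.trans_le (sub_le_comm.mp (norm_sub_norm_le _ _))
  have h2 : ∀ᶠ n in (ω : Filter ℕ), ∃ k, ‖MN u φ J n k‖ < 67 := by
    have h : ∀ᶠ n in (ω : Filter ℕ), ∀ i : I × Fin 17,
        ‖φ n (u (gam i.1 ^ i.2.val))‖ < 1.001 := eventually_all.mpr fun i =>
      (hφ.2.2.2.2.2.2 _).eventually (gt_mem_nhds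
        ((norm_le_one (u _).2.1).trans_lt (by norm_num)))
    filter_upwards [h] with n hn
    obtain ⟨m, y, c, hy, hc⟩ := cpap hs (by
      rw [Bool.range_eq, Set.pair_comm]
      exact hO.2.2.2.1) (fun C _ t ht => by
        obtain ⟨ρ, h1, h2⟩ := hO.2.2.2.2 C (t true) (t false) (by simp [ht.1]) (by simp [ht.1])
          (by simpa using ht.2)
        exact ⟨ρ, fun a => by cases a <;> assumption⟩)
      (fun i : I × Fin 17 => φ n (u (gam i.1 ^ i.2.val))) (ε := 0.001) (by norm_num)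
    let k := 68 ^ 2 * Fintype.card (KK m)
    have : Nonempty (KK m) := ⟨⟨0, fun _ => true⟩⟩
    have h3 := (norm_iota_le (hasCuntz hs) (y := fun p : XX k × KK m => WW J k p.1 * y p.2) (by
      rw [Fintype.sum_prod_type, ← (cuntz_WW hJ k).2]
      refine sum_congr rfl fun χ _ => ?_
      simp only [star_mul, mul_assoc (WW J k χ)]
      simp only [← mul_assoc (y _), ← mul_sum, ← sum_mul, hy, one_mul]) _).trans
        (bound c (by norm_num) (fun i => (hc i).1.trans (hn i).le) k.le_succ)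
    have h4 : MN u φ J n k = iota (fun p : XX k × KK m => WW J k p.1 * y p.2)
        (∑ i : I × Fin 17, mat (eta k i.1 ^ i.2.val) ⊗ₖ c i) 1 + ∑ i : I × Fin 17, iota (WW J k)
          (mat (eta k i.1 ^ i.2.val)) (φ n (u (gam i.1 ^ i.2.val)) - iota y (c i) 1) := by
      simp only [MN, map_sum, LinearMap.sum_apply, ← sum_add_distrib, map_sub]
      refine sum_congr rfl fun i _ => ?_
      rw [eq_comm, add_sub, add_sub_right_comm, add_eq_right, sub_eq_zero]
      simp only [iota_apply, Fintype.sum_prod_type, kroneckerMap_apply, mul_sum, sum_mul, smul_sum,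
        mul_smul_comm, smul_mul_assoc, smul_smul, mul_one, star_mul, mul_assoc]
      exact sum_congr rfl fun _ _ => sum_comm
    refine ⟨k, ?_⟩
    rw [h4]
    refine ((norm_add_le _ _).trans (add_le_add h3 ((norm_sum_le _ _).trans (sum_le_sum fun i _ =>
      (norm_iota_unitary (cuntz_WW hJ k) (mat_unit _) _).trans (hc i).2)))).trans_lt ?_
    simp
    norm_num
  have h3 : ∀ n, ∃ k, 67 < ‖MN u φ J n 0‖ → (∃ k, ‖MN u φ J n k‖ < 67) →
      67 ≤ ‖MN u φ J n k‖ ∧ ‖MN u φ J n (k + 1)‖ ≤ 67 := fun n => by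
    by_contra! h
    obtain ⟨h0, ⟨k, hk⟩, -⟩ := h 0
    refine hk.not_ge ?_
    clear hk
    induction k with
    | zero => exact h0.le
    | succ k ih => exact ((h k).2.2 ih).le
  choose κ hκ using h3
  have h4 := (h1.and h2).mono fun n hn => hκ n hn.1 hn.2
  obtain ⟨Φ, ψ, hΦ, hψ, h5⟩ := exists_level u hj hφ hJ κ
  obtain ⟨Φ', ψ', hΦ', hψ', h6⟩ := exists_level u hj hφ hJ fun n => κ n + 1
  obtain ⟨q, -, -, hq, hq'⟩ := gap ((rel_gam.prod (Rel.pi fun n => rel_eta (κ n))).map Φ)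
  have h7 := ge_of_tendsto h5 (h4.mono fun n hn => hn.1)
  have h8 := le_of_tendsto h6 (h4.mono fun n hn => hn.2)
  let K : F → Bdd O := fun i => ⟨fun _ => KK' J i, _, fun _ => le_rfl⟩
  have h9 := propagate Φ Φ' _ (fun i n => eta (κ n + 1) i) (fun i => j (K i)) (fun i => by
      rw [← map_star, ← map_mul, ← map_ofNat j 17, ← map_zero j, ← apply_ite j]
      refine congrArg j (Subtype.ext (funext fun n => (KK_zero hJ i).trans ?_))
      split_ifs <;> rfl)
    (fun g i => by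
      rw [hΦ, hΦ', ← map_mul, ← map_mul]
      refine congrArg j (Subtype.ext (funext fun n => ?_))
      change (ψ' _).1 n * _ = _ * (ψ _).1 n
      rw [hψ, hψ']
      exact key_d hJ i _)
    (fun g i l => by
      rw [hΦ, hΦ', ← map_mul, ← map_mul]
      refine congrArg j (Subtype.ext (funext fun n => ?_))
      change (ψ' _).1 n * _ = _ * (ψ _).1 n
      rw [hψ, hψ']
      exact key_x hJ i l _)
    (q := q) (by
      rintro rfl
      rw [sub_zero, mul_one] at hq'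
      linarith) hq
  linarith

theorem main : ∃ (Γ : Type) (_ : Group Γ) (_ : Countable Γ) (A : Type) (_ : CStarAlgebra A)
    (u : Γ →* unitary A), IsFullGroupCStar A u ∧
      ∃ (O : Type) (_ : CStarAlgebra O) (s₁ s₂ : O), IsCuntzTwo O s₁ s₂ ∧
        ∀ ω : Ultrafilter ℕ, (∀ n : ℕ, (ω : Filter ℕ) ≠ pure n) →
          ¬ ∃ φ : ℕ → A → O, IsUltrapowerEmbedding ω A O φ := by
  obtain ⟨A, _, u, hu⟩ := exists_group GG
  obtain ⟨O, _, s₁, s₂, hO⟩ := exists_two
  exact ⟨GG, inferInstance, inferInstance, A, inferInstance, u, hu, O, inferInstance, s₁, s₂, hO,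
    fun ω _ ⟨φ, hφ⟩ => no_embedding hu hO hφ⟩

end Crest.Agent.R73
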