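import Crest.Agent.R73.Gap
import Crest.Agent.R73.Cuntz

/-!
Row 73: the finite-dimensional representations of level `k`.
-/

set_option autoImplicit false
set_option linter.unusedVariables false
set_option linter.unusedSectionVars false

open Matrix Crest.Agent.R137

namespace Crest.Agent.R73

/-- The field. -/
abbrev F := ZMod 17

/-- The module of characters with a phase. -/
abbrev MM := (ℕ → F) × F

/-- The standard character. -/
noncomputable abbrev ee : AddChar F ℂ := ZMod.stdAddChar

/-- Characters of level `k`. -/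
def Lev (k : ℕ) (χ : ℕ → F) : Prop := χ k = 1 ∧ ∀ i, k < i → χ i = 0

/-- Characters of level `k`. -/
def XX (k : ℕ) : Type := {χ : ℕ → F // Lev k χ}

/-- The recursive structure. -/
def consE (k : ℕ) : XX (k + 1) ≃ F × XX k where
  toFun χ := (χ.1 0, ⟨fun i => χ.1 (i + 1), χ.2.1, fun i hi => χ.2.2 _ (by omega)⟩)
  invFun p := ⟨fun i => Nat.casesOn i p.1 p.2.1, p.2.2.1, fun i hi => by
    obtain ⟨i, rfl⟩ := Nat.exists_eq_succ_of_ne_zero (by omega : i ≠ 0)
    exact p.2.2.2 i (by omega)⟩
  left_inv χ := Subtype.ext (funext fun i => by cases i <;> rfl)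
  right_inv p := rfl

instance : Unique (XX 0) where
  default := ⟨fun i => if i = 0 then 1 else 0, rfl, fun i hi => if_neg hi.ne'⟩
  uniq χ := Subtype.ext (funext fun i => by
    cases i with
    | zero => exact χ.2.1
    | succ i => exact χ.2.2 _ i.succ_pos)

instance (k : ℕ) : Finite (XX k) := by
  induction k with
  | zero => infer_instance
  | succ k ih => exact .of_equiv _ (consE k).symm

instance (k : ℕ) : Nonempty (XX k) := by
  induction k with
  | zero => infer_instance
  | succ k ih => exact (consE k).nonempty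

noncomputable instance (k : ℕ) : Fintype (XX k) := Fintype.ofFinite _
noncomputable instance (k : ℕ) : DecidableEq (XX k) := Classical.decEq _

/-- The nilpotent parts of the generators. -/
def Ed : I → Module.End F MM
  | none => (LinearMap.inr F _ _).comp ((LinearMap.proj 0).comp (LinearMap.fst F _ _))
  | some j =>
    { toFun := fun v => (fun i => if (i : ZMod 3) = j then -v.1 (i + 1) else 0, 0)
      map_add' := fun v w => Prod.ext (funext fun i => by
        simp only [Prod.fst_add, Pi.add_apply]; split_ifs <;> ring) (by simp)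
      map_smul' := fun c v => Prod.ext (funext fun i => by simp) (by simp) }

lemma Ed_none (v : MM) : Ed none v = (0, v.1 0) := rfl

lemma Ed_some (j : ZMod 3) (v : MM) :
    Ed (some j) v = (fun i : ℕ => if (i : ZMod 3) = j then -v.1 (i + 1) else 0, 0) := rfl

lemma z3 (a : ZMod 3) : a + 1 ≠ a := by revert a; decide

lemma end17 (M : Type) [AddCommGroup M] [Module F M] : (17 : Module.End F M) = 0 := by
  rw [← map_ofNat (algebraMap F (Module.End F M)) 17]
  exact map_zero _

lemma Ed_sq (i : I) : Ed i * Ed i = 0 := by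
  refine LinearMap.ext fun v => ?_
  rcases i with _ | i
  · simp [Ed_none]
  · refine Prod.ext (funext fun n => ?_) rfl
    simp +contextual [Ed_some, z3 i]

lemma Ed_cube (i j : I) : Ed i * (Ed j * Ed i) = 0 := by
  refine LinearMap.ext fun v => ?_
  rcases i with _ | i <;> rcases j with _ | j
  · simp [Ed_none]
  · simp [Ed_none, Ed_some]
  · simp [Ed_none, Ed_some]
    rfl
  · refine Prod.ext (funext fun n => ?_) rfl
    have : ∀ i j : ZMod 3, i + 1 = j → j + 1 ≠ i := by decide
    simp +contextual [Ed_some]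
    exact fun _ h h' => (this _ _ h h').elim

/-- The maps that act on the characters of level `k`. -/
def HL (k : ℕ) : Subgroup (Module.End F MM)ˣ where
  carrier := {g | g.1 (0, 1) = (0, 1) ∧ ∀ v : MM, Lev k v.1 → Lev k (g.1 v).1 ∧ Lev k (g⁻¹.1 v).1}
  mul_mem' := fun {a b} ha hb => ⟨by simp [ha.1, hb.1], fun v hv =>
    ⟨(ha.2 _ (hb.2 v hv).1).1, (hb.2 _ (ha.2 v hv).2).2⟩⟩
  one_mem' := ⟨rfl, fun v hv => ⟨hv, hv⟩⟩
  inv_mem' := fun {a} ha => ⟨by
    conv_lhs => rw [← ha.1, ← Module.End.mul_apply, Units.inv_mul]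
    rfl, fun v hv => (ha.2 v hv).symm⟩

lemma lev_Ed {k : ℕ} (i : I) {v : MM} (hv : Lev k v.1) {n : ℕ} (hn : k ≤ n) :
    (Ed i v).1 n = 0 := by
  rcases i with _ | i
  · rfl
  · simp [Ed_some, hv.2 (n + 1) (by omega)]

/-- The generators. -/
def eta (k : ℕ) (i : I) : HL k :=
  ⟨un (Ed i) (Ed_sq i), by
    rcases i with _ | i
    · simp [un, Ed_none]
    · simp [un, Ed_some]
      rfl, fun v hv => by
    constructor <;> refine ⟨?_, fun n hn => ?_⟩
    · simp [un, lev_Ed i hv le_rfl, hv.1]
    · simp [un, lev_Ed i hv hn.le, hv.2 n hn]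
    · change ((1 - Ed i) v).1 k = 1
      simp [lev_Ed i hv le_rfl, hv.1]
    · change ((1 - Ed i) v).1 n = 0
      simp [lev_Ed i hv hn.le, hv.2 n hn]⟩

lemma rel_eta (k : ℕ) : Rel (eta k) :=
  .of_inj (HL k).subtype Subtype.val_injective (rel_un (end17 _) Ed Ed_sq Ed_cube)

variable {k : ℕ}

/-- The action on characters. -/
def act (g : HL k) (χ : XX k) : XX k := ⟨(g.1.1 (χ.1, 0)).1, (g.2.2 (χ.1, 0) χ.2).1⟩

/-- The phase. -/
def ph (g : HL k) (χ : XX k) : F := (g.1.1 (χ.1, 0)).2

lemma app (g : HL k) (χ : XX k) (t : F) : g.1.1 (χ.1, t) = ((act g χ).1, ph g χ + t) := by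
  have : (χ.1, t) = (χ.1, 0) + t • ((0, 1) : MM) := by simp
  rw [this, map_add, map_smul, g.2.1]
  ext <;> simp [act, ph]

lemma act_mul (g h : HL k) (χ : XX k) :
    act (g * h) χ = act g (act h χ) ∧ ph (g * h) χ = ph g (act h χ) + ph h χ := by
  have h1 : (g * h).1.1 (χ.1, 0) = g.1.1 (h.1.1 (χ.1, 0)) := rfl
  rw [app, app, app] at h1
  exact ⟨Subtype.ext (Prod.mk.inj h1).1, by simpa using (Prod.mk.inj h1).2⟩

lemma act_one (χ : XX k) : act 1 χ = χ := rfl

lemma ph_one (χ : XX k) : ph 1 χ = 0 := rfl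

lemma act_inj (g : HL k) : Function.Injective (act g) := fun χ χ' h => by
  rw [← act_one χ, ← act_one χ', ← inv_mul_cancel g, (act_mul ..).1, (act_mul ..).1, h]

/-- The monomial matrix. -/
noncomputable def mat (g : HL k) : Matrix (XX k) (XX k) ℂ :=
  of fun χ' χ => if χ' = act g χ then ee (ph g χ) else 0

lemma conj_ee (a : F) : star (ee a) * ee a = 1 := by
  rw [Complex.star_def, ← AddChar.map_neg_eq_conj, ← AddChar.map_add_eq_mul, neg_add_cancel,
    AddChar.map_zero_eq_one]

lemma mat_unit (g : HL k) : star (mat g) * mat g = 1 := by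
  ext χ χ'
  simp only [mat, mul_apply, star_apply, of_apply, mul_ite, mul_zero, Finset.sum_ite_eq',
    Finset.mem_univ, if_true, (act_inj g).eq_iff, one_apply, @eq_comm _ χ]
  split_ifs with h
  · rw [h, conj_ee]
  · simp

lemma mat_one : mat (1 : HL k) = 1 := by
  ext χ χ'
  simp [mat, act_one, ph_one, one_apply]

lemma mat_mul (g h : HL k) : mat (g * h) = mat g * mat h := by
  ext χ χ'
  simp [mat, mul_apply, act_mul, AddChar.map_add_eq_mul]

section Words
variable {B : Type*} [CStarAlgebra B] (J : F → B)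

/-- Words in a Cuntz family. -/
def WW : ∀ k, XX k → B
  | 0, _ => 1
  | k + 1, χ => J (consE k χ).1 * WW k (consE k χ).2

/-- The Fourier transform of the family. -/
noncomputable def KK' (i : F) : B := ∑ a, ee (a * i) • J a

variable {J}

lemma cuntz_WW (hJ : IsCuntz J) (k : ℕ) : IsCuntz (WW J k) := by
  induction k with
  | zero => exact ⟨fun a b => by simp [WW, Subsingleton.elim a b], by simp [WW]⟩
  | succ k ih => exact cuntz_equiv (cuntz_prod hJ ih) (consE k)

lemma iota_mat (W : XX k → B) (g : HL k) (y : B) :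
    iota W (mat g) y = ∑ χ, ee (ph g χ) • (W (act g χ) * y * star (W χ)) := by
  rw [iota_apply, Finset.sum_comm]
  simp [mat]

lemma KK_zero (hJ : IsCuntz J) (i : F) : star (KK' J 0) * KK' J i = if i = 0 then 17 else 0 := by
  simp only [KK', star_sum, Finset.sum_mul, Finset.mul_sum, mul_zero, AddChar.map_zero_eq_one,
    one_smul, mul_smul_comm, hJ.1, smul_ite, smul_zero, Finset.sum_ite_eq', Finset.mem_univ,
    if_true, ← Finset.sum_smul, AddChar.sum_mulShift _ (ZMod.isPrimitive_stdAddChar 17)]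
  split_ifs
  · simp [ofNat_smul_eq_nsmul]
  · simp

lemma key (hJ : IsCuntz J) (g' : HL (k + 1)) (g : HL k) (i i' : F) (δ : XX k → F)
    (h1 : ∀ a χ, consE k (act g' ((consE k).symm (a, χ))) = (a - δ χ, act g χ))
    (h2 : ∀ a χ, ph g' ((consE k).symm (a, χ)) + a * i = (a - δ χ) * i' + ph g χ) (y : B) :
    iota (WW J (k + 1)) (mat g') y * KK' J i = KK' J i' * iota (WW J k) (mat g) y := by
  have h3 : ∀ a, star (J a) * KK' J i = ee (a * i) • (1 : B) := fun a => by
    simp [KK', Finset.mul_sum, hJ.1]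
  rw [iota_mat, iota_mat, ← (consE k).symm.sum_comp, Fintype.sum_prod_type, Finset.sum_comm,
    Finset.sum_mul, Finset.mul_sum]
  refine Finset.sum_congr rfl fun χ _ => ?_
  rw [Finset.sum_mul]
  conv_rhs => rw [KK', Finset.sum_mul, ← (Equiv.subRight (δ χ)).sum_comp]
  refine Finset.sum_congr rfl fun a _ => ?_
  simp only [WW, h1, Equiv.apply_symm_apply, star_mul, smul_mul_assoc, mul_assoc, h3,
    mul_smul_comm, smul_smul, ← AddChar.map_add_eq_mul, h2, mul_one, Equiv.subRight_apply,
    add_comm (ph g χ)]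

lemma key_d (hJ : IsCuntz J) (i : F) (y : B) :
    iota (WW J (k + 1)) (mat (eta _ none)) y * KK' J i =
      KK' J (i + 1) * iota (WW J k) (mat 1) y := by
  refine key hJ _ _ _ _ 0 (fun a χ => ?_) (fun a χ => ?_) y
  · have : ∀ χ : XX (k + 1), act (eta _ none) χ = χ := fun χ =>
      Subtype.ext (by simp [act, eta, un, Ed_none])
    simp [this, act_one]
  · simp [ph, eta, un, Ed_none, consE]
    ring

lemma key_x (hJ : IsCuntz J) (i : F) (j : ZMod 3) (y : B) :
    iota (WW J (k + 1)) (mat (eta _ (some (j + 1)))) y * KK' J i = KK' J i *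
      iota (WW J k) (mat (eta _ none ^ (if j + 1 = 0 then i.val else 0) * eta _ (some j))) y := by
  have h0 : ∀ (n : ℕ) (v : MM), (eta k none ^ n).1.1 v = (v.1, v.2 + n * v.1 0) := fun n v => by
    rw [SubmonoidClass.coe_pow, eta, un_pow]
    ext <;> simp [Ed_none]
  refine key hJ _ _ _ _ (fun χ => if j + 1 = 0 then χ.1 0 else 0) (fun a χ => ?_)
    (fun a χ => ?_) y
  · refine Prod.ext ?_ (Subtype.ext (funext fun n => ?_))
    · by_cases h : j + 1 = 0 <;>
        simp [act, eta, un, Ed_some, consE, h, eq_comm (a := (0 : ZMod 3)), sub_eq_add_neg]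
    · rw [(act_mul ..).1]
      simp only [act, h0]
      simp [eta, un, Ed_some, consE]
  · rw [(act_mul ..).2]
    simp only [act, ph, h0]
    by_cases h : j + 1 = 0
    · have : ¬ 0 = j := by rintro rfl; exact absurd h (by decide)
      simp [eta, un, Ed_some, consE, h, this]
      ring
    · simp [eta, un, Ed_some, consE, h]

end Words

end Crest.Agent.R73
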