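import Crest.Agent.R73.Bound
import Crest.Agent.R73.Univ
import Crest.Prelude.Def_CStarEmbedding

/-!
Row 73: the group and the final argument.
-/

set_option autoImplicit false
set_option linter.unusedVariables false
set_option linter.unusedSectionVars false

open Matrix Crest.Agent.R137 Finset Filter Topology Crest.AnalysisR.CStarEmbedding
open scoped Kronecker InnerProductSpace

namespace Crest.Agent.R73

/-! ### The group -/

/-- The module the group acts on. -/
abbrev MG := (ℤ × ℤ → F) × (ℤ → F)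

/-- The nilpotent parts of the generators. -/
def Eg : I → Module.End F MG
  | none =>
    { toFun := fun v => (fun p => if p.2 = 0 ∧ 0 < p.1 then v.2 p.1 else 0, 0)
      map_add' := fun v w => Prod.ext (funext fun i => by
        simp only [Prod.fst_add, Prod.snd_add, Pi.add_apply]; split_ifs <;> ring) (by simp)
      map_smul' := fun c v => Prod.ext (funext fun i => by simp) (by simp) }
  | some j =>
    { toFun := fun v =>
        (fun p => if (p.2 : ZMod 3) = j + 1 ∧ p.2 < p.1 then v.1 (p.1, p.2 - 1) else 0, 0)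
      map_add' := fun v w => Prod.ext (funext fun i => by
        simp only [Prod.fst_add, Pi.add_apply]; split_ifs <;> ring) (by simp)
      map_smul' := fun c v => Prod.ext (funext fun i => by simp) (by simp) }

lemma Eg_none (v : MG) :
    Eg none v = (fun p => if p.2 = 0 ∧ 0 < p.1 then v.2 p.1 else 0, 0) := rfl

lemma Eg_some (j : ZMod 3) (v : MG) : Eg (some j) v = (fun p : ℤ × ℤ =>
    if (p.2 : ZMod 3) = j + 1 ∧ p.2 < p.1 then v.1 (p.1, p.2 - 1) else 0, 0) := rfl

lemma Eg_none_mul (i : I) : Eg none * Eg i = 0 := by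
  refine LinearMap.ext fun v => Prod.ext (funext fun n => ?_) rfl
  rcases i with _ | i <;> simp [Eg_none, Eg_some]

lemma Eg_sq (i : I) : Eg i * Eg i = 0 := by
  rcases i with _ | i
  · exact Eg_none_mul _
  · refine LinearMap.ext fun v => Prod.ext (funext fun n => ?_) rfl
    simp +contextual [Eg_some, (z3 i).symm]

lemma Eg_cube (i j : I) : Eg i * (Eg j * Eg i) = 0 := by
  rcases i with _ | i
  · rw [← mul_assoc, Eg_none_mul, zero_mul]
  rcases j with _ | j
  · rw [Eg_none_mul, mul_zero]
  · refine LinearMap.ext fun v => Prod.ext (funext fun n => ?_) rfl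
    have : ∀ i j : ZMod 3, i = j + 1 → j ≠ i + 1 := by decide
    simp +contextual [Eg_some]
    exact fun _ _ h _ h' => (this _ _ h (h ▸ h')).elim

/-- The shift. -/
def sh (a : ℤ) : Module.End F MG where
  toFun v := (fun p => v.1 (p.1 - a, p.2 - a), fun m => v.2 (m - a))
  map_add' _ _ := rfl
  map_smul' _ _ := rfl

lemma sh_apply (a : ℤ) (v : MG) :
    sh a v = (fun p => v.1 (p.1 - a, p.2 - a), fun m => v.2 (m - a)) := rfl

/-- The generators. -/
def gen0 : Option I → (Module.End F MG)ˣ
  | none => ⟨sh 1, sh (-1), LinearMap.ext fun v => by simp [sh_apply],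
      LinearMap.ext fun v => by simp [sh_apply]⟩
  | some i => un (Eg i) (Eg_sq i)

/-- The group. -/
def GG : Subgroup (Module.End F MG)ˣ := (FreeGroup.lift gen0).range

instance : Countable GG := (Set.countable_range (FreeGroup.lift gen0)).to_subtype

/-- The generators. -/
def gen1 (o : Option I) : GG := ⟨gen0 o, .of o, by simp⟩

/-- The generators of the subgroup with a spectral gap. -/
def gam (i : I) : GG := gen1 (some i)

lemma rel_gam : Rel gam :=
  .of_inj GG.subtype Subtype.val_injective (rel_un (end17 _) Eg Eg_sq Eg_cube)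

lemma gam_rel (j : ZMod 3) (n : ℕ) : gam (some (j + 1)) * (gam none ^ n * gen1 none) =
    gam none ^ n * gen1 none * (gam none ^ (if j + 1 = 0 then n else 0) * gam (some j)) := by
  have h1 : Eg (some (j + 1)) * sh 1 = sh 1 * Eg (some j) :=
    LinearMap.ext fun v => Prod.ext (funext fun n => by
      simp [Eg_some, sh_apply, sub_eq_iff_eq_add]) rfl
  have h2 : Eg (some (j + 1)) * (Eg none * sh 1) = if j + 1 = 0 then sh 1 * Eg none else 0 := by
    refine LinearMap.ext fun v => Prod.ext (funext fun p => ?_) (by split_ifs <;> rfl)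
    by_cases hp : p.2 = 1
    · split_ifs with h
      · simp [Eg_some, Eg_none, sh_apply, hp, h]
        grind
      · simp +contextual [Eg_some, Eg_none, sh_apply, hp, h]
    · split_ifs with h <;> simp [Eg_some, Eg_none, sh_apply, hp, sub_eq_zero]
  have h3 : ∀ i, Eg none * (sh 1 * Eg i) = 0 := fun i =>
    LinearMap.ext fun v => Prod.ext (funext fun n => by
      rcases i with _ | i <;> simp [Eg_some, Eg_none, sh_apply]) rfl
  refine Subtype.ext (Units.ext ?_)
  simp only [Subgroup.coe_mul, SubmonoidClass.coe_pow, gam, gen1, gen0, Units.val_mul, un_pow]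
  simp only [un, mul_add, add_mul, one_mul, mul_one, smul_mul_assoc, mul_smul_comm, mul_assoc, h1,
    h2, h3, Eg_none_mul, smul_zero, mul_zero, add_zero]
  split_ifs <;> module

/-- The coefficient of the representation of level zero. -/
noncomputable def c0 (h : HL 0) : ℂ := mat h default default

theorem seed {A : Type} [CStarAlgebra A] {u : GG →* unitary A} (hu : IsFullGroupCStar A u) :
    68 ≤ ‖∑ i : I × Fin 17, c0 (eta 0 i.1 ^ i.2.val) • (u (gam i.1 ^ i.2.val) : A)‖ := by
  classical
  let w := (permRep MG).comp ((MulAction.toPermHom _ MG).comp GG.subtype)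
  obtain ⟨ρ, hρ⟩ := hu.2 _ w
  let z : F → MG := fun t => (fun p => if p = (1, 0) then t else 0, fun m => if m = 1 then 1 else 0)
  have hz : Function.Injective z := fun s t h => by
    simpa [z] using congrFun (congrArg Prod.fst h) (1, 0)
  let ξ := ∑ t, ee t • bas MG (z t)
  have hw : ∀ i t, (w (gam i)).1 (bas MG (z t)) = bas MG (z t + Eg i (z t)) := fun i t =>
    permRep_bas _ _
  have h1 : ∀ i, c0 (eta 0 i) • (w (gam i)).1 ξ = ξ := by
    rintro (_ | i)
    · have h2 : ∀ t, z t + Eg none (z t) = z (t + 1) := fun t => by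
        refine Prod.ext (funext fun p => ?_) (by simp [z, Eg_none])
        simp only [z, Eg_none, Prod.fst_add, Pi.add_apply, Prod.ext_iff]
        grind
      have h3 : c0 (eta 0 none) = ee 1 := by
        rw [c0, mat, of_apply, if_pos (Subsingleton.elim _ _)]
        simp [ph, eta, un, Ed_none, (default : XX 0).2.1]
      simp only [ξ, map_sum, map_smul, hw, h2, h3, smul_sum, smul_smul, ← AddChar.map_add_eq_mul,
        add_comm 1]
      exact Equiv.sum_comp (Equiv.addRight (1 : F)) fun t => ee t • bas MG (z t)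
    · have h2 : ∀ t, Eg (some i) (z t) = 0 := fun t => by
        refine Prod.ext (funext fun p => ?_) rfl
        simp only [z, Eg_some, Prod.ext_iff, Prod.fst_zero, Pi.zero_apply]
        grind
      have h3 : c0 (eta 0 (some i)) = 1 := by
        rw [c0, mat, of_apply, if_pos (Subsingleton.elim _ _)]
        simp [ph, eta, un, Ed_some]
      simp [ξ, hw, h2, h3]
  have h4 : ∀ i (t : ℕ), c0 (eta 0 i ^ t) • (w (gam i ^ t)).1 ξ = ξ := fun i t => by
    induction t with
    | zero => simp [c0, mat_one]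
    | succ t ih =>
      have : c0 (eta 0 i ^ (t + 1)) = c0 (eta 0 i ^ t) * c0 (eta 0 i) := by
        simp [c0, pow_succ, mat_mul, mul_apply]
      rw [this, pow_succ, map_mul, Submonoid.coe_mul, mul_apply_eq_comp, mul_smul, ← map_smul, h1,
        ih]
  have h5 : ξ ≠ 0 := fun h => by
    have := (bas MG).orthonormal.comp _ hz |>.inner_right_fintype (fun t => ee t) 0
    simp only [Function.comp] at this
    change ⟪_, ξ⟫_ℂ = _ at this
    simp [h] at this
  refine le_trans ?_ (NonUnitalStarAlgHom.norm_apply_le ρ _)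
  have h6 := (ρ (∑ i : I × Fin 17, c0 (eta 0 i.1 ^ i.2.val) • (u (gam i.1 ^ i.2.val) : A))).le_opNorm ξ
  simp only [map_sum, map_smul, hρ, _root_.sum_apply, _root_.smul_apply, h4, sum_const] at h6 ⊢
  rw [← Nat.cast_smul_eq_nsmul ℝ, norm_smul] at h6
  simpa using le_of_mul_le_mul_right h6 (norm_pos_iff.mpr h5)

/-! ### The universal algebras -/

/-- An equation. -/
def Tm.eqn {ι : Type} (s t : Tm ι) : Tm ι := .add s (.mul (.sc (-1)) t)

lemma Tm.ev_eqn {ι B : Type} [CStarAlgebra B] (g : ι → B) (s t : Tm ι) :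
    (s.eqn t).ev g = 0 ↔ s.ev g = t.ev g := by
  simp [Tm.eqn, Tm.ev, add_neg_eq_zero]

lemma norm_le_one {B : Type} [CStarAlgebra B] {x : B} (h : star x * x = 1) : ‖x‖ ≤ 1 := by
  have h4 := CStarRing.norm_star_mul_self (x := x)
  rw [h] at h4
  nlinarith [norm_nonneg x, IsStarProjection.norm_le (1 : B) (.one B)]

theorem exists_group (Γ : Type) [Group Γ] : ∃ (A : Type) (_ : CStarAlgebra A)
    (u : Γ →* unitary A), IsFullGroupCStar A u := by
  let R : Set (Tm Γ) := {t | (∃ g h, t = .eqn (.gen (g * h)) (.mul (.gen g) (.gen h))) ∨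
    (∃ g, t = .eqn (.mul (.st (.gen g)) (.gen g)) (.sc 1)) ∨
    ∃ g, t = .eqn (.mul (.gen g) (.st (.gen g))) (.sc 1)}
  have h : ∀ (B : Type) [CStarAlgebra B] (w : Γ → B), (∀ t ∈ R, t.ev w = 0) ↔
      (∀ g h, w (g * h) = w g * w h) ∧ (∀ g, star (w g) * w g = 1) ∧ ∀ g, w g * star (w g) = 1 := by
    intro B _ w
    simp only [R, Set.mem_ofPred_eq, or_imp, forall_and, forall_exists_index, forall_eq_apply_imp_iff]
    refine and_congr ⟨fun h a b => ?_, fun h t a b ht => ?_⟩ (by simp [Tm.ev_eqn, Tm.ev])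
    · exact (Tm.ev_eqn ..).mp (h _ a b rfl)
    · exact ht ▸ (Tm.ev_eqn ..).mpr (h a b)
  obtain ⟨A, _, g, h1, h2, h3⟩ := exists_univ R fun B _ w hw i =>
    norm_le_one (((h B w).mp hw).2.1 i)
  rw [h] at h1
  exact ⟨A, inferInstance, MonoidHom.mk' (fun a => ⟨g a, h1.2.1 a, h1.2.2 a⟩)
    fun a b => Subtype.ext (h1.1 a b), h2, fun B _ w => h3 B _ ((h B fun a => w a).mpr
      ⟨by simp, fun a => (w a).2.1, fun a => (w a).2.2⟩)⟩

theorem exists_two : ∃ (O : Type) (_ : CStarAlgebra O) (s₁ s₂ : O), IsCuntzTwo O s₁ s₂ := by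
  let R : Set (Tm Bool) := {.eqn (.mul (.st (.gen true)) (.gen true)) (.sc 1),
    .eqn (.mul (.st (.gen false)) (.gen false)) (.sc 1),
    .eqn (.add (.mul (.gen true) (.st (.gen true))) (.mul (.gen false) (.st (.gen false))))
      (.sc 1)}
  have h : ∀ (B : Type) [CStarAlgebra B] (w : Bool → B), (∀ t ∈ R, t.ev w = 0) ↔
      star (w true) * w true = 1 ∧ star (w false) * w false = 1 ∧
        w true * star (w true) + w false * star (w false) = 1 := by
    intro B _ w
    simp [R, Tm.ev_eqn, Tm.ev]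
  obtain ⟨A, _, g, h1, h2, h3⟩ := exists_univ R fun B _ w hw i => by
    rw [h] at hw
    cases i
    · exact norm_le_one hw.2.1
    · exact norm_le_one hw.1
  rw [h] at h1
  refine ⟨A, inferInstance, g true, g false, h1.1, h1.2.1, h1.2.2, ?_, fun B _ t₁ t₂ a b c => ?_⟩
  · rwa [Set.pair_comm, ← Bool.range_eq]
  · obtain ⟨φ, hφ⟩ := h3 B (fun b => cond b t₁ t₂) ((h B _).mpr ⟨a, b, c⟩)
    exact ⟨φ, hφ true, hφ false⟩

end Crest.Agent.R73
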